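import Crest.Agent.N76.II.LP.Main
import Crest.Agent.N76.II.AV.Main
import Crest.Agent.N76.II.St4.Stop
import Crest.Agent.N76.II.L0.Main
import Crest.Agent.N76.II.UT.Main
import Crest.Agent.N76.II.CD
import Crest.Agent.N76.II.PhiB
import Crest.Agent.N76.II.LB

/-! # Row 76: Lemma P from the sparse gain (helper16). -/

set_option autoImplicit false

namespace Crest.Agent.N76.II

theorem lp_of_sg (d : ℕ) (hd : 1 ≤ d) (hSG : SG d) : LP d :=
  LP.lp_of d hd (cd_of d hd hSG) (l0_of d hd (lb d) (phiB d hd) (stop d hd)) (av d) hSG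
    (ut_of d hd (av d) hSG (ch d)) (ch d)

end Crest.Agent.N76.II
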