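import Crest.Agent.N76.II.LP.One

/-! # Row 76, Lemma P: auxiliary bounds (helper16). -/

set_option autoImplicit false

open MeasureTheory Set Metric
open scoped ENNReal

namespace Crest.Agent.N76.II.LP

open Crest.Agent.N76.Red (V)
open Crest.Agent.N76.G

variable {d : ℕ}

theorem card_Ico_win {b : ℕ} (hb : 1 ≤ b) {i M : ℕ} (hi : i ≤ M) (k₀ : ℤ) :
    ((Finset.Ico (k₀ * (b : ℤ) ^ (2 * (M - i))) ((k₀ + 1) * (b : ℤ) ^ (2 * (M - i)))).card : ℝ) *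
      (b : ℝ) ^ (2 * i) = (b : ℝ) ^ (2 * M) := by
  have : ((Finset.Ico (k₀ * (b : ℤ) ^ (2 * (M - i))) ((k₀ + 1) * (b : ℤ) ^ (2 * (M - i)))).card : ℤ)
      = (b : ℤ) ^ (2 * (M - i)) := by
    rw [Int.card_Ico_of_le _ _ (by
      have : (0 : ℤ) < (b : ℤ) ^ (2 * (M - i)) := by positivity
      linarith)]
    ring
  have h3 : ((Finset.Ico (k₀ * (b : ℤ) ^ (2 * (M - i)))
      ((k₀ + 1) * (b : ℤ) ^ (2 * (M - i)))).card : ℝ) = (b : ℝ) ^ (2 * (M - i)) := by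
    exact_mod_cast this
  rw [h3, ← pow_add]; congr 1; omega

theorem int_xray_le {W : V d × ℝ → ℝ} {Mx r : ℝ} (hW : Nice W Mx r) {t₁ t₂ : ℝ} (h : t₁ ≤ t₂)
    {a : ℝ} (ha : 0 < a) (t : ℝ) (H : L2 d) (A : Set (Ph d)) :
    ∫ β in A, xray W t₁ t₂ β * ‖co a t H β‖ ^ 2 ≤ Mx * (t₂ - t₁) * ‖H‖ ^ 2 := by
  have h0 : ∀ β, 0 ≤ xray W t₁ t₂ β := xray_nonneg (fun u => (hW.2.1 u).1) h
  have h1 : ∀ β, xray W t₁ t₂ β ≤ Mx * (t₂ - t₁) := xray_le hW.1 (fun u => (hW.2.1 u).2) h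
  have hi : Integrable fun β => xray W t₁ t₂ β * ‖co a t H β‖ ^ 2 :=
    integrable_weight (continuous_xray hW.1 _ _).measurable
      (fun β => by rw [abs_of_nonneg (h0 β)]; exact h1 β) (memLp_co ha t H)
  refine (setIntegral_le_integral hi (.of_forall fun β => mul_nonneg (h0 β) (by positivity))).trans ?_
  rw [← integral_co_sq ha t H, ← integral_const_mul]
  exact integral_mono hi ((Iso.integrable_co_sq ha t H).const_mul _) fun β =>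
    mul_le_mul_of_nonneg_right (h1 β) (by positivity)

theorem scale_le {η B : ℝ} (hη : 0 < η) (hB : 2 ≤ B) {k₀ j : ℕ} (hk : (2 : ℝ) ^ k₀ ≤ 2 * B ^ 30)
    (hj : ((2 : ℝ) ^ j) ^ η ≤ B ^ 7) : (2 : ℝ) ^ (k₀ + j) ≤ B ^ (31 + ⌈7 / η⌉₊) := by
  have h1 : (2 : ℝ) ^ j ≤ B ^ ⌈7 / η⌉₊ := by
    calc (2 : ℝ) ^ j = (((2 : ℝ) ^ j) ^ η) ^ (1 / η) := by
          rw [← Real.rpow_mul (by positivity), mul_one_div_cancel hη.ne', Real.rpow_one]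
      _ ≤ (B ^ 7) ^ (1 / η) := by gcongr
      _ = B ^ (7 / η) := by
          rw [← Real.rpow_natCast, ← Real.rpow_mul (by linarith)]; congr 1; push_cast; ring
      _ ≤ B ^ ((⌈7 / η⌉₊ : ℕ) : ℝ) :=
          Real.rpow_le_rpow_of_exponent_le (by linarith) (Nat.le_ceil _)
      _ = _ := Real.rpow_natCast _ _
  calc (2 : ℝ) ^ (k₀ + j) = 2 ^ k₀ * 2 ^ j := pow_add _ _ _
    _ ≤ (B * B ^ 30) * B ^ ⌈7 / η⌉₊ := by gcongr; exact hk.trans (by gcongr)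
    _ = _ := by ring

theorem basic_sizes {α : ℝ} (hα : 0 < α) {E M b : ℕ} (hE : 2 ≤ E) (hM : 1 / α ≤ M) (hM1 : 1 ≤ M)
    {R B b₁ : ℝ} (hR : 1 ≤ R) (hb₁ : 0 ≤ b₁) (hR₀ : b₁ ^ (4 * M) ≤ R) (h1 : R ^ α ≤ B)
    (h2 : B ≤ R ^ (1 / (2 * ((d : ℝ) + 2) * E))) (h3 : R / B ≤ (b : ℝ) ^ (2 * M))
    (h4 : (b : ℝ) ^ (2 * M) ≤ R) :
    B ^ E ≤ Ssc (d + 1) R ∧ R ≤ (b : ℝ) ^ (4 * M) ∧ b₁ ≤ b ∧ (b : ℝ) ^ 2 ≤ B ∧
      (b : ℝ) ^ (α / 2 * M) ≤ B ^ (1 / 4 : ℝ) := by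
  have hB1 : 1 ≤ B := (Real.one_le_rpow hR hα.le).trans h1
  have hR0 : 0 < R := by linarith
  have hE0 : (0 : ℝ) < E := by exact_mod_cast (by omega : 0 < E)
  have e1 : B ^ E ≤ Ssc (d + 1) R := by
    calc B ^ E ≤ (R ^ (1 / (2 * ((d : ℝ) + 2) * E))) ^ E := by gcongr
      _ = _ := by
          unfold Ssc
          rw [← Real.rpow_natCast, ← Real.rpow_mul hR0.le]; congr 1; push_cast; field_simp; ring
  have e2 : Ssc (d + 1) R ≤ R := by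
    unfold Ssc
    refine le_trans (Real.rpow_le_rpow_of_exponent_le hR ?_) (Real.rpow_one R).le
    rw [div_le_one (by positivity)]; push_cast
    linarith [(Nat.cast_nonneg d : (0 : ℝ) ≤ d)]
  have e3 : B ^ 2 ≤ R := (pow_le_pow_right₀ hB1 hE).trans (e1.trans e2)
  have e4 : R ≤ (b : ℝ) ^ (4 * M) := by
    calc R ≤ (R / B) ^ 2 := by
          rw [div_pow, le_div_iff₀ (by positivity), sq R]; gcongr
      _ ≤ ((b : ℝ) ^ (2 * M)) ^ 2 := by gcongr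
      _ = _ := by ring
  refine ⟨e1, e4, ?_, ?_, ?_⟩
  · exact (pow_le_pow_iff_left₀ hb₁ (by positivity) (by omega)).1 (hR₀.trans e4)
  · refine (pow_le_pow_iff_left₀ (by positivity) (by linarith) (by omega : M ≠ 0)).1 ?_
    rw [← pow_mul]
    calc _ ≤ R := h4
      _ = (R ^ α) ^ (1 / α) := by
          rw [← Real.rpow_mul hR0.le, mul_one_div_cancel hα.ne', Real.rpow_one]
      _ ≤ B ^ (1 / α) := by gcongr
      _ ≤ B ^ (M : ℝ) := Real.rpow_le_rpow_of_exponent_le hB1 hM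
      _ = _ := Real.rpow_natCast _ _
  · calc (b : ℝ) ^ (α / 2 * M) = ((b : ℝ) ^ (2 * M)) ^ (α * (1 / 4)) := by
          rw [← Real.rpow_natCast, ← Real.rpow_mul (by positivity)]; congr 1; push_cast; ring
      _ ≤ R ^ (α * (1 / 4)) := by gcongr
      _ = (R ^ α) ^ (1 / 4 : ℝ) := Real.rpow_mul hR0.le _ _
      _ ≤ _ := by gcongr

theorem cov_num {κ : ℕ} {R B C n L r sq : ℝ} (hR : 1 ≤ R) (hB : 1 ≤ B) (hC : 0 ≤ C) (hCB : 20 * C ≤ B)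
    (hn : n ≤ B) (hL : 0 ≤ L) (hsq0 : 0 ≤ sq) (hsq : sq ≤ 1 / B ^ (κ + 105))
    (h1 : Ssc (d + 1) R ≤ r) (h2 : r ≤ Ssc (d + 1) R ^ 2)
    (h3 : Ssc (d + 1) R ^ 2 ≤ r * (20 * B ^ (30 + κ))) :
    n * (C * sq * B ^ 71 * R ^ d * L / r ^ (d + 1)) ≤ R ^ d * L / (B * Real.sqrt R * prd d R r) := by
  have hS1 := one_le_Ssc hR (d + 1)
  have hr0 : 0 < r := by linarith
  have hB0 : 0 < B := by linarith
  have hp := one_le_prd (d := d) R r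
  have hT : 0 < Real.sqrt R := Real.sqrt_pos.2 (by linarith)
  have h4 : B * Real.sqrt R * prd d R r ≤ B * (r ^ d * (r * (20 * B ^ (30 + κ)))) := by
    rw [mul_assoc]
    exact mul_le_mul_of_nonneg_left ((prd_le_mid hR h1 h2).trans (by gcongr)) hB0.le
  calc _ ≤ B * (C * (1 / B ^ (κ + 105)) * B ^ 71 * R ^ d * L / r ^ (d + 1)) := by gcongr
    _ = (20 * C) / B ^ 2 * (R ^ d * L / (B * (r ^ d * (r * (20 * B ^ (30 + κ)))))) := by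
        field_simp; ring
    _ ≤ 1 * (R ^ d * L / (B * Real.sqrt R * prd d R r)) := by
        gcongr
        rw [div_le_one (by positivity)]
        exact hCB.trans (by simpa using pow_le_pow_right₀ hB (by norm_num : 1 ≤ 2))
    _ = _ := one_mul _

theorem ch_num {C B K T b : ℝ} (hC : 0 ≤ C) (hb : 2 * C ≤ b) (hb5 : 5 ≤ b) (hbB : b ^ 2 ≤ B)
    (hK : B ^ 30 ≤ K) (hKT : K ≤ T) :
    C * b * T + (b + 5) * K ≤ B * T ∧ C * b / K ≤ 1 / B ^ 22 := by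
  have hB1 : 1 ≤ B := by nlinarith
  have hK0 : 0 < K := lt_of_lt_of_le (by positivity) hK
  have h1 : C * b ≤ B / 2 := by nlinarith
  have h2 : b + 5 ≤ B / 2 := by nlinarith
  constructor
  · calc C * b * T + (b + 5) * K ≤ B / 2 * T + B / 2 * T := by
          have : 0 ≤ T := by linarith
          gcongr
      _ = _ := by ring
  · rw [div_le_div_iff₀ hK0 (by positivity), one_mul]
    calc C * b * B ^ 22 ≤ B * B ^ 22 := by gcongr; linarith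
      _ = B ^ 23 := by ring
      _ ≤ B ^ 30 := pow_le_pow_right₀ hB1 (by norm_num)
      _ ≤ K := hK

theorem final_arith {C Cs Cu Cd Cch ω P φ φ₀ I Mn lam g n B e1 e2 e3 S1 S2 S3 Xs : ℝ}
    (hC : 0 ≤ C) (hCs : 0 ≤ Cs) (hCu : 0 ≤ Cu) (hCd : 0 ≤ Cd) (hCch : 0 ≤ Cch) (hP : 0 ≤ P)
    (hφ : 0 ≤ φ) (hφ₀ : φ ≤ φ₀) (hφω : φ ≤ ω) (hI0 : 0 ≤ I) (hMn : 0 ≤ Mn) (hB : 1 ≤ B)
    (hlam : B ≤ lam) (hg : 0 ≤ g) (hn : n ≤ B) (hI1 : I ≤ Cu * Mn + Cu * lam * g)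
    (hI2 : I ≤ 3 * Cd * B ^ 2 * lam * g) (hS1 : S1 ≤ Cs * φ + n * (1 / B ^ 3))
    (hX : Xs ≤ lam) (hS2 : S2 ≤ 1) (hS3 : S3 ≤ 1)
    (h1 : e1 ≤ 2 * (e2 + e3) + Cu * lam * g) (h2 : e2 ≤ (P * lam + 1) * g)
    (h3 : e3 ≤ 2 * C * S1 * (I + lam * g) + (4 * (Xs + S2) + (2 * C + 4) * (Cch + 1) * S3) * g) :
    e1 ≤ (4 * C * Cs * Cu + (4 * C * (Cs * ω * (Cu + 1) + 3 * Cd + 1) + 16 +
        2 * ((2 * C + 4) * (Cch + 1)) + 2 * (P + 1) + Cu)) * φ₀ * Mn +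
      (4 * C * Cs * Cu + (4 * C * (Cs * ω * (Cu + 1) + 3 * Cd + 1) + 16 +
        2 * ((2 * C + 4) * (Cch + 1)) + 2 * (P + 1) + Cu)) * lam * g := by
  have hB0 : 0 < B := by linarith
  have hl1 : 1 ≤ lam := hB.trans hlam
  have hω : 0 ≤ ω := hφ.trans hφω
  have hφ0 : 0 ≤ φ₀ := hφ.trans hφ₀
  set x := lam * g with hx
  have hx0 : 0 ≤ x := by positivity
  have hgx : g ≤ x := le_mul_of_one_le_left hg hl1
  have a1 : φ * (I + x) ≤ Cu * (φ₀ * Mn) + ω * (Cu + 1) * x := by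
    calc φ * (I + x) ≤ φ * (Cu * Mn + Cu * lam * g + x) := by gcongr
      _ = Cu * (φ * Mn) + φ * (Cu + 1) * x := by rw [hx]; ring
      _ ≤ _ := by gcongr
  have a2 : n * (1 / B ^ 3) * (I + x) ≤ (3 * Cd + 1) * x := by
    calc n * (1 / B ^ 3) * (I + x) ≤ B * (1 / B ^ 3) * (3 * Cd * B ^ 2 * lam * g + B ^ 2 * x) := by
          gcongr
          exact le_mul_of_one_le_left hx0 (one_le_pow₀ hB)
      _ = _ := by rw [hx]; field_simp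
  have a3 : S1 * (I + x) ≤ Cs * (Cu * (φ₀ * Mn) + ω * (Cu + 1) * x) + (3 * Cd + 1) * x := by
    calc S1 * (I + x) ≤ (Cs * φ + n * (1 / B ^ 3)) * (I + x) := by gcongr
      _ = Cs * (φ * (I + x)) + n * (1 / B ^ 3) * (I + x) := by ring
      _ ≤ _ := by gcongr
  set Q := (2 * C + 4) * (Cch + 1) with hQ
  have hQ0 : 0 ≤ Q := by positivity
  have a4 : (4 * (Xs + S2) + Q * S3) * g ≤ 8 * x + Q * x := by
    calc (4 * (Xs + S2) + Q * S3) * g ≤ (4 * (lam + lam) + Q * lam) * g := by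
          gcongr <;> linarith
      _ = _ := by rw [hx]; ring
  have a5 : 2 * C * S1 * (I + x) ≤
      2 * C * (Cs * (Cu * (φ₀ * Mn) + ω * (Cu + 1) * x) + (3 * Cd + 1) * x) := by
    rw [mul_assoc]; gcongr
  have a6 : (P * lam + 1) * g ≤ (P + 1) * x := by rw [hx]; nlinarith
  have a7 : 0 ≤ (4 * C * (Cs * ω * (Cu + 1) + 3 * Cd + 1) + 16 + 2 * Q + 2 * (P + 1) + Cu) *
      (φ₀ * Mn) := by positivity
  have a8 : 0 ≤ 4 * C * Cs * Cu * x := by positivity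
  have a9 : Cu * lam * g = Cu * x := by rw [hx]; ring
  rw [mul_assoc _ φ₀, mul_assoc _ lam, ← hx]
  nlinarith

theorem small_energy {M m b i : ℕ} {ε : ℝ} (hd : 1 ≤ d) (hSG : SGb d ε m M b) (hi : i ≤ M)
    {R B K₀ N₂ lam : ℝ} (hB : 1 ≤ B) (hK₀ : 2 ≤ K₀) (hR4 : R ≤ (b : ℝ) ^ (4 * M))
    (hloss : (b : ℝ) ^ (ε * M) ≤ B ^ (1 / 4 : ℝ)) (hN₂ : 0 ≤ N₂) (hlam : 0 ≤ lam)
    (hsg : ((b : ℝ) ^ M * N₂) ^ (2 / ((d : ℝ) + 2)) = B ^ (2 / ((d : ℝ) + 2)) * (B * lam))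
    {ι : Type} {X Y : Finset ι} {p : ι → V d × ℝ} {w : ι → ℝ} {k₀ : ℤ} (hw : ∀ z ∈ X, 0 ≤ w z)
    (hp : ∀ z ∈ X, p z ∈ closedBall (0 : V d × ℝ) R) (hwin : ∀ z ∈ X, win b M (p z).2 = k₀)
    (hY : Y ⊆ X) (hsm : ∀ z ∈ Y, ms X p w (closedBall (p z) K₀) < 1 / B ^ 6)
    (hm2 : ∀ c, ms X p w (closedBall c ((b : ℝ) ^ M)) ≤ N₂)
    (herr : (∑ z ∈ Y, w z) / (b : ℝ) ^ (m * M) ≤ 1)
    {G : ℕ → ℤ → Set (Ph d)} (hG : ∀ l k, MeasurableSet (G l k))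
    (hG3 : ∀ l k, ∀ β ∈ G l k, ‖β.2‖ ≤ 3) {g' : L2 d} {x : ℝ} (hx : ‖g'‖ ≤ x) :
    En Y p w (fun z => tower b G i M g' (p z).2) ≤ (7 ^ d * lam + 1) * x ^ 2 := by
  classical
  obtain ⟨F₃, hF₃, hF₃'⟩ := exists_cover_three d
  have hB0 : 0 < B := by linarith
  refine (hSG 0 i (Nat.zero_le _) hi ι _ p w k₀ (fun z hz => hw z (hY hz))
    (fun z hz => closedBall_subset_closedBall hR4 (hp z (hY hz))) (fun z hz => hwin z (hY hz))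
    G hG hG3 (7 ^ d) (1 / B ^ 6) N₂ (by positivity) (by positivity) hN₂ (fun c => ?_)
    (fun c => (II.B.ms_mono hw hY fun _ _ h => h).trans (hm2 c))
    (fun z _ => ⟨F₃, by simpa using hF₃, fun β hβ _ => by simpa using hF₃' _ (hG3 _ _ β hβ)⟩)
    g').trans ?_
  · by_cases h : ∃ z ∈ Y, p z ∈ closedBall c ((b : ℝ) ^ (2 * 0))
    · obtain ⟨z, hz1, hz2⟩ := h
      refine le_trans (II.B.ms_mono hw hY fun y _ hy => ?_) (hsm z hz1).le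
      simp only [mul_zero, pow_zero, mem_closedBall] at hz2 hy ⊢
      linarith [dist_triangle_right (p y) (p z) c]
    · have : ms Y p w (closedBall c ((b : ℝ) ^ (2 * 0))) = 0 :=
        Finset.sum_eq_zero fun z hz =>
          absurd ⟨z, (Finset.mem_filter.1 hz).1, (Finset.mem_filter.1 hz).2⟩ h
      rw [this]; positivity
  · refine mul_le_mul (add_le_add ?_ herr) (by gcongr) (by positivity) (by positivity)
    rw [hsg]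
    calc _ ≤ B ^ (1 / 4 : ℝ) * 7 ^ d * (1 / B ^ 6) ^ ((d : ℝ) / (d + 2)) *
          (B ^ (2 / ((d : ℝ) + 2)) * (B * lam)) := by gcongr
      _ = 7 ^ d * ((B ^ (1 / 4 : ℝ) * (1 / B ^ 6) ^ ((d : ℝ) / (d + 2)) *
          B ^ (2 / ((d : ℝ) + 2))) * B) * lam := by ring
      _ ≤ 7 ^ d * (1 / B * B) * lam := by gcongr; exact small_num hd hB
      _ = _ := by field_simp

theorem mass_le {R B : ℝ} (hR : 1 ≤ R) (hB : B ^ 2 ≤ R) (hB1 : 1 ≤ B) {ι : Type} {X Y : Finset ι}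
    {p : ι → V d × ℝ} {w : ι → ℝ} (hreg : Reg R B X p w)
    (hp : ∀ z ∈ X, p z ∈ closedBall (0 : V d × ℝ) R) (hY : Y ⊆ X) :
    ∑ z ∈ Y, w z ≤ R ^ (d + 2) := by
  classical
  refine (Finset.sum_le_sum_of_subset_of_nonneg hY fun z hz _ => hreg.1 z hz).trans ?_
  have : ms X p w (closedBall 0 R) = ∑ z ∈ X, w z := by
    unfold ms; rw [Finset.filter_true_of_mem hp]
  rw [← this, pow_succ']
  refine (hreg.2 _ _ hR).trans (mul_le_mul ?_ (prd_top_le hR)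
    (zero_le_one.trans (one_le_prd _ _)) (by linarith))
  nlinarith

theorem I_le {R B Cd : ℝ} {b i M : ℕ} (hb : 1 ≤ b) (hi : i ≤ M) (hB : 1 ≤ B) (hR : 1 ≤ R)
    (hCd : 0 ≤ Cd) {W : V d × ℝ → ℝ} {r : ℝ}
    (hW : Nice W (Cd * B ^ (2 / ((d : ℝ) + 2)) / Ssc (d + 1) R ^ 2) r) (k₀ : ℤ) (H : ℤ → L2 d)
    {x : ℝ} (hH : ∀ k, ‖H k‖ ≤ x) (A : Set (Ph d)) :
    (0 ≤ ∑ k ∈ Finset.Ico (k₀ * (b : ℤ) ^ (2 * (M - i))) ((k₀ + 1) * (b : ℤ) ^ (2 * (M - i))),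
      ∫ β in A, xray W ((k - 1) * (b : ℝ) ^ (2 * i)) ((k + 2) * (b : ℝ) ^ (2 * i)) β *
        ‖co ((b : ℝ) ^ i) (k * (b : ℝ) ^ (2 * i)) (H k) β‖ ^ 2) ∧
    ∑ k ∈ Finset.Ico (k₀ * (b : ℤ) ^ (2 * (M - i))) ((k₀ + 1) * (b : ℤ) ^ (2 * (M - i))),
      ∫ β in A, xray W ((k - 1) * (b : ℝ) ^ (2 * i)) ((k + 2) * (b : ℝ) ^ (2 * i)) β *
        ‖co ((b : ℝ) ^ i) (k * (b : ℝ) ^ (2 * i)) (H k) β‖ ^ 2 ≤
      3 * Cd * B ^ 2 * ((b : ℝ) ^ (2 * M) / (B * Ssc (d + 1) R ^ 2)) * x ^ 2 := by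
  have hbi : (0 : ℝ) < (b : ℝ) ^ (2 * i) := by positivity
  have hS1 := one_le_Ssc hR (d + 1)
  have hle : ∀ k : ℤ, ((k : ℝ) - 1) * (b : ℝ) ^ (2 * i) ≤ (k + 2) * (b : ℝ) ^ (2 * i) := fun k => by
    gcongr; linarith
  refine ⟨Finset.sum_nonneg fun k _ => integral_nonneg fun β => mul_nonneg
      (xray_nonneg (fun u => (hW.2.1 u).1) (hle k) β) (by positivity), ?_⟩
  have hq : B ^ (2 / ((d : ℝ) + 2)) ≤ B := by
    have : 2 / ((d : ℝ) + 2) ≤ 1 := by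
      rw [div_le_one (by positivity)]; linarith [(Nat.cast_nonneg d : (0 : ℝ) ≤ d)]
    simpa using Real.rpow_le_rpow_of_exponent_le hB this
  calc _ ≤ ∑ k ∈ Finset.Ico (k₀ * (b : ℤ) ^ (2 * (M - i))) ((k₀ + 1) * (b : ℤ) ^ (2 * (M - i))),
        Cd * B / Ssc (d + 1) R ^ 2 * (3 * (b : ℝ) ^ (2 * i)) * x ^ 2 := by
        refine Finset.sum_le_sum fun k _ => (int_xray_le hW (hle k) (by positivity)
          _ _ _).trans ?_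
        rw [show ((k : ℝ) + 2) * (b : ℝ) ^ (2 * i) - (k - 1) * (b : ℝ) ^ (2 * i) =
          3 * (b : ℝ) ^ (2 * i) by ring]
        gcongr
        exact hH k
    _ = _ := by
        rw [Finset.sum_const, nsmul_eq_mul, ← card_Ico_win hb hi k₀]; field_simp

theorem coef_nonneg {θ a' η Cc B K₀ K N φ : ℝ} (hCc : 0 ≤ Cc) (hB : 0 < B) (hK₀ : 0 < K₀)
    (hK : 0 < K) (hN : 0 < N) (hφ : 0 ≤ φ) : 0 ≤ coef d θ a' η Cc B K₀ K N φ := by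
  have : 0 < n1 η N K₀ K := by unfold n1; positivity
  unfold coef; positivity

theorem sum_coef_le {θ a' η Cc Cs B φ : ℝ} (hCc : 0 ≤ Cc) (hB : 0 < B) (hφ : 0 ≤ φ) {kk m : ℕ}
    (hsum : ∑ c ∈ Finset.range m ×ˢ Finset.range m,
      (Cc * min (n1 η (2 ^ c.2 * (1 / B ^ 6)) (2 ^ kk) (2 ^ (kk + c.1)))
        (n1 η (2 ^ c.2 * (1 / B ^ 6)) (2 ^ kk) (2 ^ (kk + c.1)) ^ a')) ^ (1 - θ) *
        (2 ^ c.2 * (1 / B ^ 6)) ^ (θ - 2 / ((d : ℝ) + 2)) ≤ Cs) {𝒯 : Finset (ℕ × ℕ)}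
    (h𝒯 : 𝒯 ⊆ Finset.range m ×ˢ Finset.range m) :
    ∑ c ∈ 𝒯, coef d θ a' η Cc B (2 ^ kk) (2 ^ (kk + c.1)) (2 ^ c.2 / B ^ 6) φ ≤
      Cs * φ ^ (θ / 2) + 𝒯.card * (1 / B ^ 3) := by
  unfold coef
  rw [Finset.sum_add_distrib, Finset.sum_const, nsmul_eq_mul, ← Finset.sum_mul]
  gcongr
  refine le_trans (Finset.sum_le_sum_of_subset_of_nonneg h𝒯 fun c _ _ => ?_)
    (le_trans (le_of_eq ?_) hsum)
  · have : 0 < n1 η (2 ^ c.2 / B ^ 6) (2 ^ kk) (2 ^ (kk + c.1)) := by unfold n1; positivity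
    positivity
  · simp only [mul_one_div]

theorem bad_sum_le {B n x y lam : ℝ} (hB : 1 ≤ B) (hn : n ≤ Real.sqrt B) (hx0 : 0 ≤ x)
    (hx : x ≤ B ^ (1 / 4 : ℝ)) (hlam : 0 ≤ lam) (hy : y = B ^ (2 / ((d : ℝ) + 2)) * (B * lam)) :
    n * (x * (1 / B ^ 3) * B ^ ((d : ℝ) / (d + 2)) * y) ≤ lam := by
  have hB0 : 0 < B := by linarith
  rw [hy]
  calc _ ≤ Real.sqrt B * (B ^ (1 / 4 : ℝ) * (1 / B ^ 3) * B ^ ((d : ℝ) / (d + 2)) *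
        (B ^ (2 / ((d : ℝ) + 2)) * (B * lam))) := by gcongr
    _ = Real.sqrt B * (B ^ (1 / 4 : ℝ) * (1 / B ^ 3) * B ^ ((d : ℝ) / (d + 2)) *
        B ^ (2 / ((d : ℝ) + 2))) * (B * lam) := by ring
    _ ≤ 1 / B * (B * lam) := by gcongr; exact bad_num hB
    _ = lam := by field_simp

end Crest.Agent.N76.II.LP
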