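import Crest.Agent.N76.II.Net
import Crest.Agent.N76.II.B.Geo

/-! # Row 76, Lemma P: classes of points and the sum over classes (helper16). -/

set_option autoImplicit false

open MeasureTheory Set Metric
open scoped ENNReal

namespace Crest.Agent.N76.II.LP

open Crest.Agent.N76.Red (V)
open Crest.Agent.N76.G

variable {d : ℕ} {ι : Type*}

/-- the point `z` has cluster scale `K` and cluster mass `N` -/
def Cl (X : Finset ι) (p : ι → V d × ℝ) (w : ι → ℝ) (η K₀ S K N : ℝ) (z : ι) : Prop :=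
  N ≤ ms X p w (closedBall (p z) K) ∧ ms X p w (closedBall (p z) K) ≤ 2 * N ∧
    ∀ r, K₀ ≤ r → r ≤ S / 4 → ms X p w (closedBall (p z) r) ≤ 4 * N * (r / K) ^ η

theorem exists_pow_two_ge {r : ℝ} (hr : 1 ≤ r) : ∃ k : ℕ, r ≤ 2 ^ k ∧ (2 : ℝ) ^ k ≤ 2 * r := by
  obtain ⟨k, h1, h2⟩ := exists_nat_pow_near hr one_lt_two
  exact ⟨k + 1, h2.le, by rw [pow_succ]; linarith⟩

theorem exists_class {X : Finset ι} {p : ι → V d × ℝ} {w : ι → ℝ} (hw : ∀ z ∈ X, 0 ≤ w z)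
    {η S B : ℝ} (hη : 0 < η) (hη1 : η ≤ 1) (hB : 1 ≤ B) {k₀ : ℕ} (hk₀ : (2 : ℝ) ^ k₀ ≤ S)
    (hm : ∀ u r, 1 ≤ r → r ≤ S → ms X p w (closedBall u r) ≤ B) {z : ι}
    (hz : 1 / B ^ 6 ≤ ms X p w (closedBall (p z) (2 ^ k₀))) :
    ∃ j n : ℕ, ((2 : ℝ) ^ j) ^ η ≤ B ^ 7 ∧ (2 : ℝ) ^ n ≤ B ^ 7 ∧
      Cl X p w η (2 ^ k₀) S (2 ^ (k₀ + j)) (2 ^ n / B ^ 6) z := by
  classical
  have hS1 : 1 ≤ S := le_trans (one_le_pow₀ one_le_two) hk₀
  obtain ⟨km, hkm1, hkm2⟩ := exists_nat_pow_near hS1 one_lt_two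
  have hk0km : k₀ ≤ km := by
    by_contra h
    have : (2 : ℝ) ^ (km + 1) ≤ 2 ^ k₀ := pow_le_pow_right₀ one_le_two (by omega)
    linarith
  set Nk : ℕ → ℝ := fun k => ms X p w (closedBall (p z) (2 ^ k)) with hNk
  obtain ⟨k, hk, hmax⟩ := (Finset.Icc k₀ km).exists_max_image
    (fun k => Nk k / ((2 : ℝ) ^ k) ^ η) ⟨k₀, by simp [hk0km]⟩
  obtain ⟨hk1, hk2⟩ := Finset.mem_Icc.1 hk
  have hB6 : 0 < B ^ 6 := by positivity
  have hp : ∀ k : ℕ, 0 < ((2 : ℝ) ^ k) ^ η := fun k => by positivity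
  have hgr : ∀ k', k₀ ≤ k' → k' ≤ km → Nk k' ≤ Nk k * ((2 : ℝ) ^ k' / 2 ^ k) ^ η := by
    intro k' h1 h2
    have := hmax k' (Finset.mem_Icc.2 ⟨h1, h2⟩)
    rw [div_le_div_iff₀ (hp _) (hp _)] at this
    rw [Real.div_rpow (by positivity) (by positivity), mul_div_assoc', le_div_iff₀ (hp _)]
    exact this
  have hkB : Nk k ≤ B := hm _ _ (one_le_pow₀ one_le_two)
    (le_trans (pow_le_pow_right₀ one_le_two hk2) hkm1)
  have hmono : Nk k₀ ≤ Nk k := II.B.ms_mono hw subset_rfl fun i _ hi =>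
    closedBall_subset_closedBall (pow_le_pow_right₀ one_le_two hk1) hi
  have h1 : 1 ≤ Nk k * B ^ 6 := by
    have := hz.trans hmono
    rwa [div_le_iff₀ hB6] at this
  obtain ⟨n, hn1, hn2⟩ := exists_nat_pow_near h1 one_lt_two
  obtain ⟨j, rfl⟩ := Nat.exists_eq_add_of_le hk1
  refine ⟨j, n, ?_, ?_, ?_, ?_, ?_⟩
  · have h2 := hgr k₀ le_rfl hk0km
    have e : ((2 : ℝ) ^ k₀ / 2 ^ (k₀ + j)) ^ η = (((2 : ℝ) ^ j) ^ η)⁻¹ := by
      rw [← Real.inv_rpow (by positivity)]; congr 1; rw [pow_add]; field_simp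
    rw [e, ← div_eq_mul_inv, le_div_iff₀ (hp _)] at h2
    have h3 : 1 / B ^ 6 * ((2 : ℝ) ^ j) ^ η ≤ B :=
      le_trans (mul_le_mul_of_nonneg_right hz (hp _).le) (h2.trans hkB)
    rw [one_div, ← div_eq_inv_mul, div_le_iff₀ hB6] at h3
    calc _ ≤ B * B ^ 6 := h3
      _ = B ^ 7 := by ring
  · calc (2 : ℝ) ^ n ≤ Nk (k₀ + j) * B ^ 6 := hn1
      _ ≤ B * B ^ 6 := by gcongr
      _ = B ^ 7 := by ring
  · rw [div_le_iff₀ hB6]; exact hn1
  · have : Nk (k₀ + j) ≤ 2 * (2 ^ n / B ^ 6) := by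
      rw [← mul_div_assoc, le_div_iff₀ hB6]; rw [pow_succ (2 : ℝ) n] at hn2; linarith
    exact this
  · intro r hr1 hr2
    have hr0 : 1 ≤ r := le_trans (one_le_pow₀ one_le_two) hr1
    obtain ⟨k', h2, h3⟩ := exists_pow_two_ge hr0
    have hk'1 : k₀ ≤ k' := by
      by_contra h
      have : (2 : ℝ) ^ k' < 2 ^ k₀ := pow_lt_pow_right₀ one_lt_two (by omega)
      linarith
    have hk'2 : k' ≤ km := by
      by_contra h
      have : (2 : ℝ) ^ (km + 1) ≤ 2 ^ k' := pow_le_pow_right₀ one_le_two (by omega)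
      linarith
    have h4 : ms X p w (closedBall (p z) r) ≤ Nk k' := II.B.ms_mono hw subset_rfl fun i _ hi =>
      closedBall_subset_closedBall h2 hi
    have h5 : Nk (k₀ + j) ≤ 2 * (2 ^ n / B ^ 6) := by
      rw [← mul_div_assoc, le_div_iff₀ hB6]; rw [pow_succ (2 : ℝ) n] at hn2; linarith
    have h6 : ((2 : ℝ) ^ k' / 2 ^ (k₀ + j)) ^ η ≤ 2 * (r / 2 ^ (k₀ + j)) ^ η := by
      calc ((2 : ℝ) ^ k' / 2 ^ (k₀ + j)) ^ η ≤ (2 * (r / 2 ^ (k₀ + j))) ^ η := by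
            apply Real.rpow_le_rpow (by positivity) _ hη.le
            rw [← mul_div_assoc]; gcongr
        _ = 2 ^ η * (r / 2 ^ (k₀ + j)) ^ η := Real.mul_rpow (by norm_num) (by positivity)
        _ ≤ 2 * (r / 2 ^ (k₀ + j)) ^ η := by
            gcongr
            simpa using Real.rpow_le_rpow_of_exponent_le one_le_two hη1
    calc _ ≤ Nk (k₀ + j) * ((2 : ℝ) ^ k' / 2 ^ (k₀ + j)) ^ η := h4.trans (hgr k' hk'1 hk'2)
      _ ≤ (2 * (2 ^ n / B ^ 6)) * (2 * (r / 2 ^ (k₀ + j)) ^ η) := by gcongr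
      _ = _ := by ring

theorem sum_pow_le_of_inj {ρ : ℝ} (h0 : 0 ≤ ρ) (h1 : ρ < 1) (s : Finset ℕ) (g : ℕ → ℕ)
    (hg : Set.InjOn g s) : ∑ n ∈ s, ρ ^ g n ≤ (1 - ρ)⁻¹ := by
  rw [← Finset.sum_image (f := fun k => ρ ^ k) hg, ← tsum_geometric_of_lt_one h0 h1]
  exact (summable_geometric_of_lt_one h0 h1).sum_le_tsum _ fun _ _ => by positivity

theorem two_rpow_neg_lt {u : ℝ} (hu : 0 < u) : (2 : ℝ) ^ (-u) < 1 :=
  Real.rpow_lt_one_of_one_lt_of_neg one_lt_two (by linarith)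

theorem pow_two_rpow (n : ℕ) (u : ℝ) : ((2 : ℝ) ^ n) ^ u = ((2 : ℝ) ^ u) ^ n := by
  rw [← Real.rpow_natCast, ← Real.rpow_natCast, ← Real.rpow_mul (by norm_num),
    ← Real.rpow_mul (by norm_num), mul_comm]

theorem sum_min_rpow_le {u γ : ℝ} (hu : 0 < u) (hγ : 0 < γ) {x : ℝ} (hx : 0 < x) (s : Finset ℕ) :
    ∑ n ∈ s, min ((x * 2 ^ n) ^ u) ((x * 2 ^ n) ^ (-γ)) ≤
      (1 - (2 : ℝ) ^ (-u))⁻¹ + (1 - (2 : ℝ) ^ (-γ))⁻¹ := by
  classical
  rw [← Finset.sum_filter_add_sum_filter_not s (fun n => x * 2 ^ n ≤ 1)]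
  have p1 : 0 < (1 - (2 : ℝ) ^ (-u))⁻¹ := inv_pos.2 (by linarith [two_rpow_neg_lt hu])
  have p2 : 0 < (1 - (2 : ℝ) ^ (-γ))⁻¹ := inv_pos.2 (by linarith [two_rpow_neg_lt hγ])
  gcongr
  · rcases (s.filter fun n => x * 2 ^ n ≤ 1).eq_empty_or_nonempty with h | h
    · rw [h]; simpa using p1.le
    obtain ⟨n₀, hn₀, hmax⟩ := Finset.exists_max_image _ id h
    refine le_trans (Finset.sum_le_sum fun n hn => ?_)
      (sum_pow_le_of_inj (by positivity) (two_rpow_neg_lt hu) _ (fun n => n₀ - n) ?_)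
    · have hle : n ≤ n₀ := hmax n hn
      obtain ⟨m, rfl⟩ := Nat.exists_eq_add_of_le hle
      have h2 : x * 2 ^ (n + m) ≤ 1 := (Finset.mem_filter.1 hn₀).2
      refine (min_le_left _ _).trans ?_
      simp only [Nat.add_sub_cancel_left]
      rw [← pow_two_rpow, Real.rpow_neg (by positivity), ← Real.inv_rpow (by positivity)]
      apply Real.rpow_le_rpow (by positivity) _ hu.le
      rw [← one_div, le_div_iff₀ (by positivity), mul_assoc, ← pow_add]; exact h2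
    · intro a ha b hb hab
      have h1 : a ≤ n₀ := hmax a ha
      have h2 : b ≤ n₀ := hmax b hb
      simp only at hab
      omega
  · rcases (s.filter fun n => ¬ x * 2 ^ n ≤ 1).eq_empty_or_nonempty with h | h
    · rw [h]; simpa using p2.le
    obtain ⟨n₀, hn₀, hmin⟩ := Finset.exists_min_image _ id h
    refine le_trans (Finset.sum_le_sum fun n hn => ?_)
      (sum_pow_le_of_inj (by positivity) (two_rpow_neg_lt hγ) _ (fun n => n - n₀) ?_)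
    · have hle : n₀ ≤ n := hmin n hn
      obtain ⟨m, rfl⟩ := Nat.exists_eq_add_of_le hle
      have h2 : 1 < x * 2 ^ n₀ := not_le.1 (Finset.mem_filter.1 hn₀).2
      refine (min_le_right _ _).trans ?_
      simp only [Nat.add_sub_cancel_left]
      rw [← pow_two_rpow]
      apply Real.rpow_le_rpow_of_nonpos (by positivity) _ (by linarith)
      rw [pow_add, ← mul_assoc]
      exact le_mul_of_one_le_left (by positivity) h2.le
    · intro a ha b hb hab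
      have h1 : n₀ ≤ a := hmin a ha
      have h2 : n₀ ≤ b := hmin b hb
      simp only at hab
      omega

/-- `N₁ = 4 N (K₀ / K) ^ η` -/
noncomputable def n1 (η N K₀ K : ℝ) : ℝ := 4 * N * (K₀ / K) ^ η

theorem class_term_le {a θ q η C : ℝ} (hθ1 : θ < 1) (hC : 0 ≤ C) {x : ℝ}
    (hx : 0 < x) (k₀ j n : ℕ) :
    (C * min (n1 η (2 ^ n * x) (2 ^ k₀) (2 ^ (k₀ + j)))
        (n1 η (2 ^ n * x) (2 ^ k₀) (2 ^ (k₀ + j)) ^ a)) ^ (1 - θ) * (2 ^ n * x) ^ (θ - q) ≤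
      C ^ (1 - θ) * 4 ^ (q - θ) * ((2 : ℝ) ^ (-(η * (q - θ)))) ^ j *
        min ((4 * x * (1 / 2 ^ j) ^ η * 2 ^ n) ^ (1 - q))
          ((4 * x * (1 / 2 ^ j) ^ η * 2 ^ n) ^ (-(q - θ - a * (1 - θ)))) := by
  set y : ℝ := 4 * x * (1 / 2 ^ j) ^ η * 2 ^ n with hy
  have hy0 : 0 < y := by positivity
  have e1 : n1 η (2 ^ n * x) (2 ^ k₀) (2 ^ (k₀ + j)) = y := by
    unfold n1
    have : (2 : ℝ) ^ k₀ / 2 ^ (k₀ + j) = 1 / 2 ^ j := by rw [pow_add]; field_simp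
    rw [this, hy]; ring
  have hj : (0 : ℝ) < ((2 : ℝ) ^ j) ^ η := by positivity
  have e2 : (2 : ℝ) ^ n * x = y * (((2 : ℝ) ^ j) ^ η / 4) := by
    rw [hy, one_div, Real.inv_rpow (by positivity)]; field_simp
  have e3 : (((2 : ℝ) ^ j) ^ η / 4) ^ (θ - q) = 4 ^ (q - θ) * ((2 : ℝ) ^ (-(η * (q - θ)))) ^ j := by
    rw [Real.div_rpow hj.le (by norm_num), ← Real.rpow_mul (by positivity), pow_two_rpow,
      show η * (θ - q) = -(η * (q - θ)) by ring, show θ - q = -(q - θ) by ring,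
      Real.rpow_neg (by norm_num : (0 : ℝ) ≤ 4)]
    field_simp
  rw [e1, e2, Real.mul_rpow hy0.le (by positivity), e3,
    Real.mul_rpow hC (le_min hy0.le (by positivity))]
  have key : min y (y ^ a) ^ (1 - θ) * y ^ (θ - q) ≤
      min (y ^ (1 - q)) (y ^ (-(q - θ - a * (1 - θ)))) := by
    have hm : 0 ≤ min y (y ^ a) := le_min hy0.le (by positivity)
    apply le_min
    · calc _ ≤ y ^ (1 - θ) * y ^ (θ - q) := by
            gcongr
            exact min_le_left _ _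
        _ = _ := by rw [← Real.rpow_add hy0]; congr 1; ring
    · calc _ ≤ (y ^ a) ^ (1 - θ) * y ^ (θ - q) := by
            gcongr
            exact min_le_right _ _
        _ = _ := by rw [← Real.rpow_mul hy0.le, ← Real.rpow_add hy0]; congr 1; ring
  calc _ = C ^ (1 - θ) * 4 ^ (q - θ) * ((2 : ℝ) ^ (-(η * (q - θ)))) ^ j *
        (min y (y ^ a) ^ (1 - θ) * y ^ (θ - q)) := by ring
    _ ≤ _ := by gcongr

theorem class_sum {a θ q η C : ℝ} (hθ1 : θ < 1) (hθq : θ < q) (hq : q < 1)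
    (hγ : a * (1 - θ) + θ < q) (hη : 0 < η) (hC : 0 ≤ C) :
    ∃ C' : ℝ, 0 ≤ C' ∧ ∀ x : ℝ, 0 < x → ∀ (k₀ : ℕ) (s t : Finset ℕ),
      ∑ c ∈ s ×ˢ t, (C * min (n1 η (2 ^ c.2 * x) (2 ^ k₀) (2 ^ (k₀ + c.1)))
        (n1 η (2 ^ c.2 * x) (2 ^ k₀) (2 ^ (k₀ + c.1)) ^ a)) ^ (1 - θ) * (2 ^ c.2 * x) ^ (θ - q)
        ≤ C' := by
  have h1 : 0 < 1 - q := by linarith
  have h2 : 0 < q - θ - a * (1 - θ) := by linarith
  have h3 : 0 < η * (q - θ) := mul_pos hη (by linarith)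
  set A : ℝ := (1 - (2 : ℝ) ^ (-(1 - q)))⁻¹ + (1 - (2 : ℝ) ^ (-(q - θ - a * (1 - θ))))⁻¹ with hA
  have p1 : 0 < (1 - (2 : ℝ) ^ (-(1 - q)))⁻¹ := inv_pos.2 (by linarith [two_rpow_neg_lt h1])
  have p2 : 0 < (1 - (2 : ℝ) ^ (-(q - θ - a * (1 - θ))))⁻¹ :=
    inv_pos.2 (by linarith [two_rpow_neg_lt h2])
  have p3 : 0 < (1 - (2 : ℝ) ^ (-(η * (q - θ))))⁻¹ := inv_pos.2 (by linarith [two_rpow_neg_lt h3])
  have hA0 : 0 ≤ A := by positivity
  refine ⟨C ^ (1 - θ) * 4 ^ (q - θ) * A * (1 - (2 : ℝ) ^ (-(η * (q - θ))))⁻¹, by positivity,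
    fun x hx k₀ s t => ?_⟩
  rw [Finset.sum_product]
  calc _ ≤ ∑ j ∈ s, C ^ (1 - θ) * 4 ^ (q - θ) * A * ((2 : ℝ) ^ (-(η * (q - θ)))) ^ j := by
        refine Finset.sum_le_sum fun j _ => ?_
        refine (Finset.sum_le_sum fun n _ => class_term_le (a := a) (q := q) hθ1 hC hx k₀ j n).trans ?_
        rw [← Finset.mul_sum]
        have := sum_min_rpow_le h1 h2 (x := 4 * x * (1 / 2 ^ j) ^ η) (by positivity) t
        calc _ ≤ C ^ (1 - θ) * 4 ^ (q - θ) * ((2 : ℝ) ^ (-(η * (q - θ)))) ^ j * A := by gcongr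
          _ = _ := by ring
    _ ≤ _ := by
        rw [← Finset.mul_sum]
        gcongr
        exact sum_pow_le_of_inj (by positivity) (two_rpow_neg_lt h3) s id (Set.injOn_id _)

/-- there are at most `√B` classes -/
theorem exists_class_range {η : ℝ} (hη : 0 < η) : ∃ B₁ : ℝ, ∀ B, B₁ ≤ B →
    ∃ m : ℕ, ((m : ℝ)) ^ 2 ≤ Real.sqrt B ∧ ∀ j : ℕ, ((2 : ℝ) ^ j) ^ η ≤ B ^ 7 → j < m := by
  have hl : 0 < Real.log 2 := Real.log_pos one_lt_two
  set A : ℝ := 7 / (η * Real.log 2) with hA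
  have hA0 : 0 < A := by positivity
  refine ⟨(8 * A + 1) ^ 8, fun B hB => ?_⟩
  have hB1 : 1 ≤ B := le_trans (one_le_pow₀ (by linarith)) hB
  have hlog : 0 ≤ Real.log B := Real.log_nonneg hB1
  refine ⟨⌊A * Real.log B⌋₊ + 1, ?_, fun j hj => ?_⟩
  · set y : ℝ := B ^ (1 / 8 : ℝ) with hy
    have hy1 : 1 ≤ y := Real.one_le_rpow hB1 (by norm_num)
    have hy8 : y ^ 8 = B := by
      rw [hy, ← Real.rpow_natCast, ← Real.rpow_mul (by linarith)]; norm_num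
    have hl8 : Real.log B ≤ 8 * y := by
      have := Real.log_le_rpow_div (by linarith : 0 ≤ B) (by norm_num : (0 : ℝ) < 1 / 8)
      rw [← hy] at this; linarith
    have hAy : 8 * A + 1 ≤ y := by
      by_contra h
      have : y ^ 8 < (8 * A + 1) ^ 8 := pow_lt_pow_left₀ (not_le.1 h) (by linarith) (by norm_num)
      linarith
    have h1 : ((⌊A * Real.log B⌋₊ + 1 : ℕ) : ℝ) ≤ y * y := by
      push_cast
      have := Nat.floor_le (mul_nonneg hA0.le hlog)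
      nlinarith
    have h2 : Real.sqrt B = y ^ 4 := by
      rw [← hy8, show y ^ 8 = (y ^ 4) ^ 2 by ring, Real.sqrt_sq (by positivity)]
    rw [h2]
    calc _ ≤ (y * y) ^ 2 := by gcongr
      _ = _ := by ring
  · have h1 := Real.log_le_log (by positivity) hj
    rw [Real.log_rpow (by positivity), Real.log_pow, Real.log_pow] at h1
    have h2 : (j : ℝ) ≤ A * Real.log B := by
      rw [hA, div_mul_eq_mul_div, le_div_iff₀ (by positivity)]
      push_cast at h1; linarith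
    exact Nat.lt_succ_of_le (Nat.le_floor h2)

end Crest.Agent.N76.II.LP
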