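import Crest.Agent.N76.II.LP.Bnd

/-! # Row 76, Lemma P: assembly (helper16). -/

set_option autoImplicit false

open MeasureTheory Set Metric
open scoped ENNReal

namespace Crest.Agent.N76.II.LP

open Crest.Agent.N76.Red (V)
open Crest.Agent.N76.G

variable {d : ℕ}

set_option maxHeartbeats 1600000 in
theorem lp_of_cw (hd : 1 ≤ d) (hCW : CW d) (hSG : SG d) (hUT : UT d) (hCH : CH d) : LP d := by
  classical
  obtain ⟨θ, a', η, Cc, C, B₀, hθ0, hθ1, hθq, hγ, hη0, hη1, hCc, hC, hCW⟩ := hCW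
  set κ : ℕ := 31 + ⌈7 / η⌉₊ with hκ
  have hd' : (1 : ℝ) ≤ d := by exact_mod_cast hd
  have hq1 : 2 / ((d : ℝ) + 2) < 1 := by rw [div_lt_one (by positivity)]; linarith
  refine ⟨1 / (2 * ((d : ℝ) + 2) * ((8 * κ + 492 : ℕ) : ℝ)), by positivity, θ / 2, by positivity,
    fun α hα => ?_⟩
  obtain ⟨M₁, hSG⟩ := hSG (α / 2) (by positivity) (4 * (d + 2))
  obtain ⟨M₂, hUT⟩ := hUT α hα
  set M : ℕ := M₁ + M₂ + ⌈1 / α⌉₊ + 1 with hM
  obtain ⟨b₀, hSG⟩ := hSG M (by omega)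
  obtain ⟨Cu, Ru, hCu, hRu, hUT⟩ := hUT M (by omega)
  obtain ⟨Cch, hCch, hCH⟩ := hCH M
  obtain ⟨Cs, hCs, hsum⟩ := class_sum hθ1 hθq hq1 hγ hη0 hCc
  obtain ⟨B₁, hrange⟩ := exists_class_range hη0
  obtain ⟨Cd, hCd, hdens⟩ := exists_dens_const d
  obtain ⟨b₂, hexp⟩ := exists_exp_small (4 * M * (2 * d + 2))
  set ω : ℝ := (volume (closedBall (0 : V d) 3)).toReal with hω
  set b₁ : ℝ := max (max (max (b₀ : ℝ) 80) (max B₀ B₁))
    (max (max b₂ ((d + 1) * (4 * M + 6))) (max (2 * Cch) (20 * C))) with hb₁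
  have hb₁80 : 80 ≤ b₁ := le_max_of_le_left (le_max_of_le_left (le_max_right _ _))
  refine ⟨M, by omega, 4 * C * Cs * Cu + (4 * C * (Cs * ω ^ (θ / 2) * (Cu + 1) + 3 * Cd + 1) + 16 +
        2 * ((2 * C + 4) * (Cch + 1)) + 2 * (7 ^ d + 1) + Cu), max Ru (b₁ ^ (4 * M)),
    by positivity, le_max_of_le_left hRu, ?_⟩
  intro R hR B hB1 hB2 b hL1 hL2 ι X p w k₀ hw hp hwin hball hreg
  have hR1 : 1 ≤ R := hRu.trans ((le_max_left _ _).trans hR)
  obtain ⟨hS, hR4, hb, hbB, hloss⟩ := basic_sizes (d := d) hα (by omega : 2 ≤ 8 * κ + 492)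
    (M := M) (by
      rw [hM]; push_cast
      linarith [Nat.le_ceil (1 / α), (Nat.cast_nonneg M₁ : (0 : ℝ) ≤ M₁),
        (Nat.cast_nonneg M₂ : (0 : ℝ) ≤ M₂)])
    (by omega) hR1 (by linarith) ((le_max_right _ _).trans hR) hB1 hB2 hL1 hL2
  simp only [hb₁, max_le_iff] at hb
  obtain ⟨⟨⟨g1, g2⟩, g3, g4⟩, ⟨g5, g6⟩, g7, g8⟩ := hb
  have hbB' : (b : ℝ) ≤ B := by nlinarith
  have hb2 : 2 ≤ b := by exact_mod_cast (by linarith : (2 : ℝ) ≤ b)
  have hb' : 1 ≤ b := by omega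
  have hB : 1 ≤ B := by linarith
  have hB0 : 0 < B := by linarith
  have hM0 : (0 : ℝ) ≤ M := Nat.cast_nonneg _
  have hL0 : (0 : ℝ) < (b : ℝ) ^ (2 * M) := by positivity
  have hdB : 2 * ((d : ℝ) + 1) ≤ B := le_trans (by nlinarith) (g6.trans hbB')
  have hsB : Real.sqrt B ≤ B := by rw [Real.sqrt_le_left hB0.le]; nlinarith
  have hBκ : 1 ≤ 10 * B ^ 30 * B ^ κ := by
    nlinarith [one_le_pow₀ (n := 30) hB, one_le_pow₀ (n := κ) hB]
  have hLL : ((k₀ : ℝ) - 1) * (b : ℝ) ^ (2 * M) ≤ (k₀ + 2) * (b : ℝ) ^ (2 * M) := by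
    gcongr; linarith
  obtain ⟨kk, j, i, k₁, k₂, lv⟩ := exists_levels (κ := κ) (B₀ := B₀) hd hR1 (g3.trans hbB')
    (g2.trans hbB') hdB hb2 hbB hS hL1 hL2
    ((log_small hR1 g6 hR4).trans hbB)
  have hSG' : SGb d (α / 2) (4 * (d + 2)) M b := hSG b (by exact_mod_cast g1)
  have hreg' : Reg R B X p w := ⟨hw, hreg⟩
  obtain ⟨G, E₁, hG, hG3, hcov₁, hUT⟩ := hUT R ((le_max_left _ _).trans hR) B hB1 b hb2 hbB' hL1 hL2
    lv.B2 j i k₁ lv.hj lv.hi lv.u1 lv.u2 lv.u3 lv.u4 lv.u5 lv.u6 lv.u7 ι X p w k₀ hreg' hp hwin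
  obtain ⟨m, hm1, hm2⟩ := hrange B (g4.trans hbB')
  have hS1 := one_le_Ssc hR1 (d + 1)
  set S := Ssc (d + 1) R with hSdef
  set valid : ℕ × ℕ → Prop := fun c => ((2 : ℝ) ^ c.1) ^ η ≤ B ^ 7 ∧ (2 : ℝ) ^ c.2 ≤ B ^ 7
    with hvalid
  set Xc : ℕ × ℕ → ℤ → Finset ι := fun c k => X.filter fun z =>
    Cl X p w η (2 ^ kk) S (2 ^ (kk + c.1)) (2 ^ c.2 / B ^ 6) z ∧ win b i (p z).2 = k with hXc
  have hKm : ∀ c, valid c → (2 : ℝ) ^ (kk + c.1) ≤ B ^ κ := fun c hc =>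
    scale_le hη0 (by linarith) lv.hk₀' hc.1
  have hex : ∀ (c : ℕ × ℕ) (k : ℤ), ∃ (Bad : Set (Ph d)) (E : Finset ι), valid c →
      CWOut θ a' η Cc C R B (2 ^ kk) (B ^ κ) ((b : ℝ) ^ i) b ((b : ℝ) ^ j) (2 ^ k₂)
        (2 ^ (kk + c.1)) (2 ^ c.2 / B ^ 6) (k * (b : ℝ) ^ (2 * i)) X (Xc c k) p w Bad E := by
    intro c k
    by_cases hc : valid c
    · obtain ⟨Bad, E, h⟩ := hCW R B _ _ _ _ _ _ lv.num (2 ^ (kk + c.1)) (2 ^ c.2 / B ^ 6)
        (k * (b : ℝ) ^ (2 * i)) (pow_le_pow_right₀ one_le_two (by omega)) (hKm c hc)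
        (by gcongr; exact one_le_pow₀ one_le_two)
        (by rw [div_le_iff₀ (by positivity), ← pow_succ']; exact hc.2)
        ι X p w hreg' hball (Xc c k) (Finset.filter_subset _ _) (fun z hz => by
          obtain ⟨h1, h2, h3⟩ := Finset.mem_filter.1 hz
          exact ⟨h2, hp z h1, h3 ▸ win_bounds hb' i _⟩)
      exact ⟨Bad, E, fun _ => h⟩
    · exact ⟨∅, ∅, fun h => absurd h hc⟩
  choose Bad E hout using hex
  set 𝒯 := (Finset.range m ×ˢ Finset.range m).filter valid with h𝒯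
  set s := Finset.Ico (k₀ * (b : ℤ) ^ (2 * (M - i))) ((k₀ + 1) * (b : ℤ) ^ (2 * (M - i))) with hs
  have hcard := card_Ico_win hb' lv.hi.le k₀
  rw [← hs] at hcard
  have h𝒯c : (𝒯.card : ℝ) ≤ Real.sqrt B := by
    refine le_trans ?_ hm1
    have : 𝒯.card ≤ m ^ 2 := (Finset.card_filter_le _ _).trans (by simp [sq])
    exact_mod_cast this
  set E₀ := 𝒯.biUnion fun c => s.biUnion fun k => E c k with hE₀
  have hk21 : k₂ ≠ k₁ := lv.r2.ne
  have asq : ((b : ℝ) ^ i) ^ 2 = (b : ℝ) ^ (2 * i) := by rw [← pow_mul, mul_comm]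
  have hr2 : (2 : ℝ) ^ k₂ ≤ S ^ 2 := 
    le_trans (le_mul_of_one_le_right lv.num.hr0.le hBκ) lv.num.hr
  refine ⟨fun k => if k = k₂ then E₀ else if k = k₁ then E₁ else ∅, fun k hk => ?_, fun k => ?_, ?_⟩
  · by_cases h2 : k = k₂
    · rw [h2]; exact (pow_le_pow_right₀ one_le_two lv.r2.le).trans lv.r1
    · by_cases h1 : k = k₁
      · rw [h1]; exact lv.r1
      · simp [h1, h2] at hk
  · by_cases h2 : k = k₂
    · simp only [h2, if_true]
      refine II.B.cov_mono (II.B.cov_biUnion 𝒯 (fun c => s.biUnion fun k => E c k) _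
        (fun c hc => II.B.cov_biUnion s (E c) _
          (fun k _ => (hout c k (Finset.mem_filter.1 hc).2).2.1)
          (fun z hz => Finset.mem_biUnion.1 hz)) (fun z hz => Finset.mem_biUnion.1 hz))
        subset_rfl le_rfl ?_
      simp only [Finset.sum_const, nsmul_eq_mul]
      refine le_trans (le_of_eq ?_) (cov_num (L := (b : ℝ) ^ (2 * M)) hR1 hB (by linarith)
        (g8.trans hbB') (h𝒯c.trans hsB) hL0.le (Real.sqrt_nonneg _) lv.sq lv.r3 hr2 lv.r4)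
      rw [← hcard, asq]; ring
    · by_cases h1 : k = k₁
      · simp only [h1, hk21.symm, if_true, if_false]
        refine II.B.cov_mono hcov₁ subset_rfl le_rfl ?_
        have hT : 0 < Real.sqrt R := Real.sqrt_pos.2 (by linarith)
        rw [prd_eq_of_ge hR1 lv.u6, mul_assoc B, mul_div_cancel₀ _ hT.ne']
        gcongr
        simpa using pow_le_pow_right₀ hB (by norm_num : 1 ≤ 2)
      · simp only [h1, h2, if_false]
        have := one_le_prd (d := d) R (2 ^ k)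
        exact ⟨∅, by simp only [Finset.card_empty, Nat.cast_zero]; positivity, by simp⟩
  intro X' hX' hE 𝓡 φ₀ h𝓡 h𝓡2 hφ₀ hΦ g
  have hw' : ∀ z ∈ X', 0 ≤ w z := fun z hz => hw z (hX' hz)
  have hE1 : ∀ z ∈ X', z ∉ E₁ := fun z hz => by simpa [hk21.symm] using hE z hz k₁
  have hE0 : ∀ z ∈ X', z ∉ E₀ := fun z hz => by simpa using hE z hz k₂
  have hMn : 0 ≤ ∫ β in 𝓡, xray (vv X p w ((b : ℝ) ^ (2 * M) / B ^ 20))
      ((k₀ - 1) * (b : ℝ) ^ (2 * M)) ((k₀ + 2) * (b : ℝ) ^ (2 * M)) β *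
      ‖co (Real.sqrt R) 0 g β‖ ^ 2 :=
    integral_nonneg fun β => mul_nonneg
      (xray_nonneg (vv_nonneg hw (by positivity)) hLL β) (sq_nonneg _)
  rcases X'.eq_empty_or_nonempty with rfl | hne
  · have : En (∅ : Finset ι) p w (fun _ => loc (Real.sqrt R) 0 𝓡 g) = 0 := Finset.sum_empty
    rw [this]; positivity
  obtain ⟨u1, u2⟩ := hUT 𝓡 g h𝓡 h𝓡2
  replace u1 := u1 X' hX' hE1
  replace u2 := u2 (hne.mono hX')
  set g' := loc (Real.sqrt R) 0 𝓡 g with hg'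
  have hg'n : ‖g'‖ ≤ ‖g‖ := norm_loc_le (Real.sqrt_pos.2 (by linarith)) 0 h𝓡 g
  set lam := (b : ℝ) ^ (2 * M) / (B * S ^ 2) with hlam
  set φ := min φ₀ ω with hφ
  have hφ0 : 0 ≤ φ := le_min hφ₀ ENNReal.toReal_nonneg
  have hWY : ∀ Y ⊆ X, ∑ z ∈ Y, w z ≤ R ^ (d + 2) := fun Y hY => mass_le hR1 lv.B2 hB hreg' hp hY
  have herr1 : ∀ Y ⊆ X, (∑ z ∈ Y, w z) / (b : ℝ) ^ (4 * (d + 2) * M) ≤ 1 := fun Y hY => by
    rw [div_le_one (by positivity), show 4 * (d + 2) * M = 4 * M * (d + 2) by ring, pow_mul]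
    exact (hWY Y hY).trans (by gcongr)
  have herr2 : ∀ Y ⊆ X, (∑ z ∈ Y, w z) * R ^ d * Real.exp (-(b : ℝ)) ≤ 1 := fun Y hY => by
    refine le_trans ?_ (hexp b g5)
    gcongr
    calc (∑ z ∈ Y, w z) * R ^ d ≤ R ^ (d + 2) * R ^ d := by gcongr; exact hWY Y hY
      _ = R ^ (2 * d + 2) := by ring
      _ ≤ _ := by rw [pow_mul]; gcongr
  set N₂ := B * (((b : ℝ) ^ M) ^ (d + 1) / Real.sqrt R) with hN₂
  have hmN₂ : ∀ c, ms X p w (closedBall c ((b : ℝ) ^ M)) ≤ N₂ := fun c => by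
    rw [hN₂, ← prd_eq_of_ge hR1 lv.top]
    exact hreg c _ (one_le_pow₀ (by exact_mod_cast hb'))
  have hsg : ((b : ℝ) ^ M * N₂) ^ (2 / ((d : ℝ) + 2)) = B ^ (2 / ((d : ℝ) + 2)) * (B * lam) := by
    rw [hN₂, sg_num hR1 hB0.le (by positivity), hlam, ← pow_mul, mul_comm M 2, ← hSdef]; field_simp
  have hlam0 : 0 ≤ lam := by positivity
  have hmB : ∀ u r, 1 ≤ r → r ≤ S → ms X p w (closedBall u r) ≤ B := fun u r h1 h2 => by
    have := hreg u r h1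
    rwa [prd_eq_one hR1 (by linarith) h2, mul_one] at this
  have hkkS : (2 : ℝ) ^ kk ≤ S := le_trans (le_mul_of_one_le_left (by positivity) (by linarith))
    lv.num.hK₀S
  set sm : ι → Prop := fun z => ms X p w (closedBall (p z) (2 ^ kk)) < 1 / B ^ 6 with hsm
  set Hz : ι → L2 d := fun z => tower b G (i + 1) M g' (p z).2 with hHz
  have hsplit : En X' p w Hz = En (X'.filter sm) p w Hz + En (X'.filter fun z => ¬ sm z) p w Hz :=
    (Finset.sum_filter_add_sum_filter_not _ _ _).symm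
  have hN₂0 : 0 ≤ N₂ := by positivity
  have hsmall : En (X'.filter sm) p w Hz ≤ (7 ^ d * lam + 1) * ‖g‖ ^ 2 :=
    have hY : X'.filter sm ⊆ X := (Finset.filter_subset _ _).trans hX'
    small_energy hd hSG' lv.hi hB (K₀ := 2 ^ kk) (by linarith [lv.num.hK₀]) hR4 hloss hN₂0 hlam0 hsg
      hw hp hwin hY (fun z hz => (Finset.mem_filter.1 hz).2) hmN₂ (herr1 _ hY) hG hG3 hg'n
  have hcls : ∀ z, ∃ c : ℕ × ℕ, ¬ sm z → c ∈ 𝒯 ∧
      Cl X p w η (2 ^ kk) S (2 ^ (kk + c.1)) (2 ^ c.2 / B ^ 6) z := by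
    intro z
    by_cases hz : sm z
    · exact ⟨(0, 0), fun h => absurd hz h⟩
    obtain ⟨jj, n, h1, h2, h3⟩ := exists_class hw hη0 (by linarith) hB hkkS hmB (not_lt.1 hz)
    refine ⟨(jj, n), fun _ => ⟨Finset.mem_filter.2 ⟨Finset.mem_product.2
      ⟨Finset.mem_range.2 (hm2 _ h1), Finset.mem_range.2 (hm2 _ (le_trans ?_ h2))⟩, h1, h2⟩, h3⟩⟩
    simpa using Real.rpow_le_rpow_of_exponent_le (one_le_pow₀ one_le_two : (1 : ℝ) ≤ 2 ^ n)
      (by linarith : η ≤ 1)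
  choose cl hcl using hcls
  set Z := X'.filter fun z => ¬ sm z with hZ
  have hZX : Z ⊆ X := (Finset.filter_subset _ _).trans hX'
  have hclZ : ∀ z ∈ Z, cl z ∈ 𝒯 := fun z hz => (hcl z (Finset.mem_filter.1 hz).2).1
  have hcoef : ∀ c : ℕ × ℕ,
      0 ≤ coef d θ a' η Cc B (2 ^ kk) (2 ^ (kk + c.1)) (2 ^ c.2 / B ^ 6) φ := fun c =>
    coef_nonneg hCc hB0 (pow_pos two_pos _) (pow_pos two_pos _)
      (div_pos (pow_pos two_pos _) (pow_pos hB0 _)) hφ0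
  have hC0 : 0 ≤ C := zero_le_one.trans hC
  have hCch0 : 0 ≤ Cch := zero_le_one.trans hCch
  have hCd0 : 0 ≤ Cd := zero_le_one.trans hCd
  have hθ2 : 0 ≤ θ / 2 := by linarith
  have hone := fun (c : ℕ × ℕ) (hc : c ∈ 𝒯) =>
    have hv : valid c := (Finset.mem_filter.1 hc).2
    have hKT : (2 : ℝ) ^ (kk + c.1) ≤ Real.sqrt R :=
      (hKm c hv).trans (((pow_le_pow_right₀ hB (by omega)).trans hS).trans lv.ST)
    have hch := ch_num (C := Cch) hCch0 g7 (le_trans (by norm_num) g2) hbB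
      (lv.hk₀.trans (pow_le_pow_right₀ one_le_two (Nat.le_add_right kk c.1))) hKT
    class_energy (Y := Z.filter fun z => cl z = c) (Xc := Xc c) (φ := φ) hCH hSG' hC0
      hCch0 hR1 hB hb2 hL2 hR4 lv.hi.le lv.hj (one_le_pow₀ one_le_two)
      ((hKm c hv).trans lv.num.hKa) hKT hch.1 hch.2 hw hp hwin hN₂0
      (fun c => hmB c _ (one_le_pow₀ (by exact_mod_cast hb')) lv.u2) hmN₂ hG hG3
      (fun k z hz => ⟨(Finset.mem_filter.1 hz).1, (Finset.mem_filter.1 hz).2.2⟩)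
      (fun k => hout c k hv)
      (fun z hz => by
        obtain ⟨h1, h2⟩ := Finset.mem_filter.1 hz
        obtain ⟨h3, h4⟩ := Finset.mem_filter.1 h1
        refine ⟨Finset.mem_filter.2 ⟨hX' h3, h2 ▸ (hcl z h4).2, rfl⟩, fun h => hE0 z h3 ?_⟩
        exact Finset.mem_biUnion.2 ⟨c, hc, Finset.mem_biUnion.2
          ⟨_, win_mem hb' lv.hi.le (hwin z (hX' h3)), h⟩⟩)
      h𝓡 h𝓡2 hφ0 (hcoef c)
      (fun z hz => by
        obtain ⟨Φ, f1, f2, f3⟩ := hΦ z (Finset.mem_filter.1 (Finset.mem_filter.1 hz).1).1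
        refine ⟨Φ, f1, ?_, f3⟩
        rcases le_total φ₀ ω with h | h
        · rw [hφ, min_eq_left h]; exact (measure_mono inter_subset_left).trans f2
        · rw [hφ, min_eq_right h, hω, ENNReal.ofReal_toReal measure_closedBall_lt_top.ne]
          exact measure_mono inter_subset_right) g
  rw [← hs, ← hSdef, ← hg', ← hlam] at hone
  have hnice := ((hdens ι X p w hw).2 R B (S ^ 2 * B ^ 3) hR1 hB hreg'
    (le_mul_of_one_le_right (by positivity) (one_le_pow₀ hB))).2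
  have hI := I_le hb' lv.hi.le hB hR1 hCd0 hnice k₀
    (fun k => tower b G (i + 1) M g' (k * (b : ℝ) ^ (2 * i)))
    (fun k => (norm_tower_le hb' hG _ _ _ _).trans hg'n) {β : Ph d | ‖β.2‖ ≤ 3}
  refine final_arith hC0 hCs hCu hCd0 hCch0 (pow_pos (by norm_num : (0 : ℝ) < 7) d).le
    (Real.rpow_nonneg hφ0 _) (Real.rpow_le_rpow hφ0 (min_le_left _ _) hθ2)
    (Real.rpow_le_rpow hφ0 (min_le_right _ _) hθ2) hI.1
    hMn hB lv.lam (sq_nonneg _) (h𝒯c.trans hsB) u2 hI.2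
    (sum_coef_le hCc hB0 hφ0 (hsum _ (one_div_pos.2 (pow_pos hB0 6)) kk _ _)
      (Finset.filter_subset _ _))
    (bad_sum_le hB h𝒯c (Real.rpow_nonneg (Nat.cast_nonneg b) _) hloss hlam0 hsg)
    (herr1 Z hZX) (herr2 Z hZX) (hsplit ▸ u1) hsmall ?_
  rw [En_fiber p w _ hclZ]
  refine (Finset.sum_le_sum hone).trans (le_of_eq ?_)
  simp only [Finset.sum_add_distrib, ← Finset.sum_mul, ← Finset.mul_sum, ← Finset.sum_div,
    Finset.sum_fiberwise_of_maps_to hclZ, Finset.sum_const, nsmul_eq_mul]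
  ring

/-- **Lemma P** from its leaves -/
theorem lp_of (d : ℕ) (hd : 1 ≤ d) (hCD : CD d) (hL : L0 d) (hA : AV d) (hSG : SG d) (hUT : UT d)
    (hCH : CH d) : LP d :=
  lp_of_cw hd (cw hCD hL hA) hSG hUT hCH

end Crest.Agent.N76.II.LP
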