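import Crest.Agent.N76.II.LP.CW

/-! # Row 76, Lemma P: choice of the levels and numerics (helper16). -/

set_option autoImplicit false

open MeasureTheory Set Metric
open scoped ENNReal

namespace Crest.Agent.N76.II.LP

open Crest.Agent.N76.Red (V)
open Crest.Agent.N76.G

/-- all relations between the chosen scales -/
structure Lv (d κ : ℕ) (B₀ R B : ℝ) (b M k₀ j i₀ k₁ k₂ : ℕ) : Prop where
  num : Num d B₀ R B (2 ^ k₀) (B ^ κ) ((b : ℝ) ^ i₀) b ((b : ℝ) ^ j) (2 ^ k₂)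
  hk₀ : B ^ 30 ≤ 2 ^ k₀
  hk₀' : (2 : ℝ) ^ k₀ ≤ 2 * B ^ 30
  hj : j ≤ i₀
  hi : i₀ < M
  u1 : B ^ 24 ≤ (b : ℝ) ^ j
  u2 : (b : ℝ) ^ (2 * j) ≤ Ssc (d + 1) R
  u3 : Ssc (d + 1) R ^ 2 * B ^ 23 ≤ (b : ℝ) ^ (2 * i₀)
  u4 : (b : ℝ) ^ i₀ ≤ Ssc (d + 1) R ^ 2
  u5 : (b : ℝ) ^ (2 * i₀) ≤ Ssc (d + 1) R ^ 2 * (b : ℝ) ^ j
  u6 : Ssc (d + 1) R ^ 2 ≤ 2 ^ k₁
  u7 : (2 : ℝ) ^ k₁ ≤ 2 * Ssc (d + 1) R ^ 2
  r1 : (2 : ℝ) ^ k₁ ≤ Real.sqrt R / B
  r2 : k₂ < k₁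
  r3 : Ssc (d + 1) R ≤ 2 ^ k₂
  r4 : Ssc (d + 1) R ^ 2 ≤ 2 ^ k₂ * (20 * B ^ (30 + κ))
  sq : Real.sqrt (B ^ κ * (Ssc (d + 1) R ^ 2 * B ^ 3) / ((b : ℝ) ^ i₀) ^ 2) ≤ 1 / B ^ (κ + 105)
  top : Ssc (d + 1) R ^ 2 ≤ (b : ℝ) ^ M
  lam : B ≤ (b : ℝ) ^ (2 * M) / (B * Ssc (d + 1) R ^ 2)
  B2 : B ^ 2 ≤ R
  ST : Ssc (d + 1) R ≤ Real.sqrt R

theorem exists_levels {d κ : ℕ} (hd : 1 ≤ d) {B₀ R B : ℝ} {b M : ℕ} (hR : 1 ≤ R) (hB₀ : B₀ ≤ B)
    (hB : 80 ≤ B) (hBd : 2 * ((d : ℝ) + 1) ≤ B) (hb : 2 ≤ b) (hbB : (b : ℝ) ^ 2 ≤ B)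
    (hS : B ^ (8 * κ + 492) ≤ Ssc (d + 1) R) (h1 : R / B ≤ (b : ℝ) ^ (2 * M))
    (h2 : (b : ℝ) ^ (2 * M) ≤ R) (hlog : Real.log ((4 * R + 1) ^ (d + 1) + 1) ≤ B) :
    ∃ k₀ j i₀ k₁ k₂ : ℕ, Lv d κ B₀ R B b M k₀ j i₀ k₁ k₂ := by
  have hST := Ssc_pow (d := d) hR
  have hS1 := one_le_Ssc hR (d + 1)
  set S := Ssc (d + 1) R with hSdef
  have hB1 : 1 ≤ B := by linarith
  have hB0 : 0 < B := by linarith
  have hS0 : 0 < S := by linarith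
  have hb2 : (2 : ℝ) ≤ b := by exact_mod_cast hb
  have hb1 : (1 : ℝ) < b := by linarith
  have hbB' : (b : ℝ) ≤ B := by nlinarith
  have hp : ∀ {m n : ℕ}, m ≤ n → B ^ m ≤ B ^ n := fun h => pow_le_pow_right₀ hB1 h
  have hpS : ∀ {m : ℕ}, m ≤ 8 * κ + 492 → B ^ m ≤ S := fun h => (hp h).trans hS
  have hT : S ^ 3 ≤ Real.sqrt R := hST ▸ pow_le_pow_right₀ hS1 (by omega)
  have hTR : Real.sqrt R ≤ R := by
    rw [Real.sqrt_le_left (by linarith)]; nlinarith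
  have hR6 : S ^ 6 ≤ R := by
    calc S ^ 6 = (S ^ 3) ^ 2 := by ring
      _ ≤ Real.sqrt R ^ 2 := by gcongr
      _ = R := Real.sq_sqrt (by linarith)
  have hSS : ∀ {m n : ℕ}, m ≤ n → S ^ m ≤ S ^ n := fun h => pow_le_pow_right₀ hS1 h
  obtain ⟨k₀, hk₀, hk₀'⟩ := exists_pow_two_ge (one_le_pow₀ hB1 : 1 ≤ B ^ 30)
  obtain ⟨k₁, hk₁, hk₁'⟩ := exists_pow_two_ge (one_le_pow₀ hS1 : 1 ≤ S ^ 2)
  obtain ⟨j', hj1, hj2⟩ := exists_nat_pow_near (one_le_pow₀ hB1 : 1 ≤ B ^ (4 * κ + 245)) hb1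
  obtain ⟨i', hi1, hi2⟩ := exists_nat_pow_near
    (one_le_mul_of_one_le_of_one_le (one_le_pow₀ hS1) (one_le_pow₀ hB1) :
      1 ≤ S ^ 2 * B ^ (3 * κ + 213)) (one_lt_pow₀ hb1 two_ne_zero : 1 < (b : ℝ) ^ 2)
  have h20 : 20 * B ^ (30 + κ) ≤ S := by
    calc 20 * B ^ (30 + κ) ≤ B * B ^ (30 + κ) := by gcongr; linarith
      _ = B ^ (31 + κ) := by ring
      _ ≤ S := hpS (by omega)
  have hBp : 0 < B ^ (30 + κ) := by positivity
  obtain ⟨k₂, hk₂, hk₂'⟩ := exists_nat_pow_near (x := S ^ 2 / (10 * B ^ (30 + κ)))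
    (by rw [one_le_div (by positivity)]; nlinarith) one_lt_two
  rw [le_div_iff₀ (by positivity)] at hk₂
  rw [div_lt_iff₀ (by positivity)] at hk₂'
  have aj1 : (b : ℝ) ^ (j' + 1) ≤ B ^ (4 * κ + 246) := by
    rw [pow_succ, pow_succ B]; gcongr
  have aj2 : (b : ℝ) ^ (2 * (j' + 1)) ≤ S := by
    rw [mul_comm, pow_mul]
    calc _ ≤ (B ^ (4 * κ + 246)) ^ 2 := by gcongr
      _ = B ^ (8 * κ + 492) := by ring
      _ ≤ S := hS
  have a1 : S ^ 2 * B ^ (3 * κ + 213) ≤ (b : ℝ) ^ (2 * (i' + 1)) := by rw [pow_mul]; exact hi2.le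
  have a2 : (b : ℝ) ^ (2 * (i' + 1)) ≤ S ^ 2 * B ^ (3 * κ + 214) := by
    rw [pow_mul, pow_succ, pow_succ B, ← mul_assoc]; gcongr
  have asq : ((b : ℝ) ^ (i' + 1)) ^ 2 = (b : ℝ) ^ (2 * (i' + 1)) := by rw [← pow_mul, mul_comm]
  have a3 : (b : ℝ) ^ (i' + 1) ≤ S * B ^ (2 * κ + 107) := by
    refine (pow_le_pow_iff_left₀ (by positivity) (by positivity) two_ne_zero).1 ?_
    rw [asq]
    calc _ ≤ S ^ 2 * B ^ (3 * κ + 214) := a2
      _ ≤ S ^ 2 * B ^ (4 * κ + 214) := by gcongr; omega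
      _ = _ := by ring
  have hge : ∀ {m : ℕ}, m ≤ 3 * κ + 213 → S ^ 2 * B ^ m ≤ (b : ℝ) ^ (2 * (i' + 1)) := fun h =>
    le_trans (by gcongr) a1
  have hSa : S ^ 2 ≤ (b : ℝ) ^ (2 * (i' + 1)) := by simpa using hge (Nat.zero_le _)
  have hiM : i' + 1 < M := by
    have : (b : ℝ) ^ (2 * (i' + 1)) < (b : ℝ) ^ (2 * M) := by
      refine lt_of_lt_of_le ?_ h1
      rw [lt_div_iff₀ hB0]
      calc _ ≤ S ^ 2 * B ^ (3 * κ + 214) * B := by gcongr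
        _ < S ^ 2 * B ^ (3 * κ + 214) * B * B := lt_mul_of_one_lt_right (by positivity) (by linarith)
        _ = S ^ 2 * B ^ (3 * κ + 216) := by ring
        _ ≤ S ^ 2 * S := by gcongr; exact hpS (by omega)
        _ ≤ R := by linarith [hSS (show 3 ≤ 6 by norm_num), pow_succ S 2]
    have := (pow_lt_pow_iff_right₀ hb1).1 this
    omega
  have hBS : B ≤ S := by simpa using hpS (m := 1) (by omega)
  refine ⟨k₀, j' + 1, i' + 1, k₁, k₂, ⟨hR, hB₀, hB1, ?_, ?_, ?_, hpS (by omega), ?_, ?_, ?_, hb1.le,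
    hbB', ?_, ?_, ?_, by positivity, ?_, hlog⟩, hk₀, hk₀', ?_, hiM, ?_, aj2, hge (by omega), ?_, ?_,
    hk₁, hk₁', ?_, ?_, ?_, ?_, ?_, ?_, ?_, ?_, ?_⟩
  · have := hp (show 2 ≤ 30 by norm_num); nlinarith
  · calc ((d : ℝ) + 1) * 2 ^ k₀ ≤ (d + 1) * (2 * B ^ 30) := by gcongr
      _ = 2 * (d + 1) * B ^ 30 := by ring
      _ ≤ B * B ^ 30 := by gcongr
      _ = B ^ 31 := by ring
      _ ≤ S := hpS (by omega)
  · calc 8 * (B ^ κ) ^ 2 ≤ B * (B ^ κ) ^ 2 := by gcongr; linarith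
      _ = B ^ (2 * κ + 1) := by ring
      _ ≤ S := hpS (by omega)
  · refine (pow_le_pow_iff_left₀ (by positivity) (by positivity) two_ne_zero).1 ?_
    rw [asq]
    refine le_trans ?_ hSa
    gcongr; exact hpS (by omega)
  · rw [asq]
    refine le_trans ?_ (hge (m := 4) (by omega))
    calc 2 * (S ^ 2 * B ^ 3) ≤ B * (S ^ 2 * B ^ 3) := by gcongr; linarith
      _ = _ := by ring
  · rw [asq]
    exact le_trans (pow_le_pow_right₀ hb1.le (by omega)) h2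
  · exact (hp (by omega)).trans hj2.le
  · calc (b : ℝ) ^ (i' + 1) * b * (40 * B ^ 30 * B ^ κ)
        ≤ S * B ^ (2 * κ + 107) * B * (B * B ^ 30 * B ^ κ) := by gcongr; linarith
      _ = S * B ^ (3 * κ + 139) := by ring
      _ ≤ S * S := by gcongr; exact hpS (by omega)
      _ = _ := by ring
  · rw [asq]
    calc _ ≤ S ^ 2 * B ^ (3 * κ + 214) * (B * B ^ 30 * B ^ κ) := by gcongr
      _ = S ^ 2 * B ^ (4 * κ + 245) := by ring
      _ ≤ _ := by gcongr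
  · calc _ = (2 : ℝ) ^ k₂ * (10 * B ^ (30 + κ)) := by ring
      _ ≤ _ := hk₂
  · have : (b : ℝ) ^ (2 * (j' + 1)) ≤ (b : ℝ) ^ (2 * (i' + 1)) :=
      aj2.trans (le_trans (by simpa using hSS (show 1 ≤ 2 by norm_num)) hSa)
    have := (pow_le_pow_iff_right₀ hb1).1 this
    omega
  · exact (hp (by omega)).trans hj2.le
  · calc _ ≤ S * B ^ (2 * κ + 107) := a3
      _ ≤ S * S := by gcongr; exact hpS (by omega)
      _ = _ := by ring
  · refine a2.trans ?_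
    gcongr
    exact (hp (by omega)).trans hj2.le
  · rw [le_div_iff₀ hB0]
    calc (2 : ℝ) ^ k₁ * B ≤ 2 * S ^ 2 * B := by gcongr
      _ ≤ B * S ^ 2 * B := by gcongr; linarith
      _ = S ^ 2 * B ^ 2 := by ring
      _ ≤ S ^ 2 * S := by gcongr; exact hpS (by omega)
      _ ≤ _ := by rw [← pow_succ]; exact hT
  · have : (2 : ℝ) ^ k₂ < 2 ^ k₁ := by
      refine lt_of_lt_of_le ?_ (hk₂.trans hk₁)
      exact lt_mul_of_one_lt_right (by positivity) (by linarith [one_le_pow₀ (n := 30 + κ) hB1])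
    exact (pow_lt_pow_iff_right₀ one_lt_two).1 this
  · have h3 : S * S ≤ 2 ^ k₂ * S := by
      calc S * S = S ^ 2 := by ring
        _ ≤ 2 ^ (k₂ + 1) * (10 * B ^ (30 + κ)) := hk₂'.le
        _ = 2 ^ k₂ * (20 * B ^ (30 + κ)) := by ring
        _ ≤ _ := by gcongr
    exact le_of_mul_le_mul_right h3 hS0
  · calc S ^ 2 ≤ 2 ^ (k₂ + 1) * (10 * B ^ (30 + κ)) := hk₂'.le
      _ = _ := by ring
  · rw [asq, Real.sqrt_le_left (by positivity), div_le_iff₀ (by positivity)]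
    calc B ^ κ * (S ^ 2 * B ^ 3) = (1 / B ^ (κ + 105)) ^ 2 * (S ^ 2 * B ^ (3 * κ + 213)) := by
          field_simp; ring
      _ ≤ _ := by gcongr
  · refine (pow_le_pow_iff_left₀ (by positivity) (by positivity) two_ne_zero).1 ?_
    rw [← pow_mul (b : ℝ), mul_comm M]
    refine le_trans ?_ h1
    rw [le_div_iff₀ hB0]
    calc (S ^ 2) ^ 2 * B ≤ (S ^ 2) ^ 2 * S := by gcongr
      _ = S ^ 5 := by ring
      _ ≤ R := (hSS (by norm_num)).trans hR6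
  · rw [le_div_iff₀ (by positivity)]
    refine le_trans ?_ h1
    rw [le_div_iff₀ hB0]
    calc B * (B * S ^ 2) * B ≤ S * (S * S ^ 2) * S := by gcongr
      _ = S ^ 5 := by ring
      _ ≤ R := (hSS (by norm_num)).trans hR6
  · exact (hpS (by omega)).trans (le_trans (by simpa using hSS (show 1 ≤ 6 by norm_num)) hR6)
  · exact le_trans (by simpa using hSS (show 1 ≤ 3 by norm_num)) hT

theorem prd_le_mid {d : ℕ} {R r : ℝ} (hR : 1 ≤ R) (h1 : Ssc (d + 1) R ≤ r)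
    (h2 : r ≤ Ssc (d + 1) R ^ 2) : Real.sqrt R * prd d R r ≤ r ^ d * Ssc (d + 1) R ^ 2 := by
  have hST := Ssc_pow (d := d) hR
  have hS1 := one_le_Ssc hR (d + 1)
  unfold prd
  set S := Ssc (d + 1) R
  have hS0 : 0 < S := by linarith
  have hr0 : 0 < r := by linarith
  have e : Real.sqrt R * (r / S) ^ d = r ^ d * S ^ 2 := by
    rw [← hST, div_pow]; field_simp; ring
  have hT : 0 < Real.sqrt R := hST ▸ by positivity
  rw [mul_max_of_nonneg _ _ hT.le, mul_max_of_nonneg _ _ hT.le, e]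
  refine max_le ?_ (max_le le_rfl ?_)
  · rw [← e]; gcongr; exact one_le_pow₀ ((one_le_div hS0).2 h1)
  · rw [mul_div_cancel₀ _ hT.ne', pow_succ]; gcongr

theorem prd_top_le {d : ℕ} {R : ℝ} (hR : 1 ≤ R) : prd d R R ≤ R ^ (d + 1) := by
  have hS1 := one_le_Ssc hR (d + 1)
  unfold prd
  refine max_le (one_le_pow₀ hR) (max_le ?_ ?_)
  · calc (R / Ssc (d + 1) R) ^ d ≤ R ^ d := by gcongr; exact div_le_self (by linarith) hS1
      _ ≤ _ := pow_le_pow_right₀ hR (by omega)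
  · exact div_le_self (by positivity) (Real.one_le_sqrt.2 hR)

theorem sg_num {d : ℕ} {R B x : ℝ} (hR : 1 ≤ R) (hB : 0 ≤ B) (hx : 0 ≤ x) :
    (x * (B * (x ^ (d + 1) / Real.sqrt R))) ^ (2 / ((d : ℝ) + 2)) =
      B ^ (2 / ((d : ℝ) + 2)) * (x ^ 2 / Ssc (d + 1) R ^ 2) := by
  have hS1 := one_le_Ssc hR (d + 1)
  rw [← Ssc_pow (d := d) hR]
  set S := Ssc (d + 1) R
  have e : x * (B * (x ^ (d + 1) / S ^ (d + 2))) = B * (x / S) ^ (d + 2) := by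
    rw [div_pow]; ring
  rw [e, Real.mul_rpow hB (by positivity), ← div_pow, ← Real.rpow_natCast (x / S) (d + 2),
    ← Real.rpow_mul (by positivity), ← Real.rpow_natCast (x / S) 2]
  congr 2
  push_cast
  field_simp

theorem small_num {d : ℕ} (hd : 1 ≤ d) {B : ℝ} (hB : 1 ≤ B) :
    B ^ (1 / 4 : ℝ) * (1 / B ^ 6) ^ ((d : ℝ) / (d + 2)) * B ^ (2 / ((d : ℝ) + 2)) ≤ 1 / B := by
  have hB0 : 0 < B := by linarith
  have hd' : (1 : ℝ) ≤ d := by exact_mod_cast hd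
  rw [one_div (B ^ 6), ← Real.rpow_natCast B 6, ← Real.rpow_neg hB0.le, ← Real.rpow_mul hB0.le,
    ← Real.rpow_add hB0, ← Real.rpow_add hB0, one_div B, ← Real.rpow_neg_one]
  apply Real.rpow_le_rpow_of_exponent_le hB
  have : (0 : ℝ) < d + 2 := by linarith
  have e : (1 / 4 : ℝ) + -((6 : ℕ) : ℝ) * ((d : ℝ) / (d + 2)) + 2 / ((d : ℝ) + 2) =
      -1 - (19 * d - 18) / (4 * (d + 2)) := by push_cast; field_simp; ring
  rw [e]
  have : 0 ≤ (19 * (d : ℝ) - 18) / (4 * (d + 2)) := div_nonneg (by linarith) (by positivity)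
  linarith

theorem bad_num {d : ℕ} {B : ℝ} (hB : 1 ≤ B) :
    Real.sqrt B * (B ^ (1 / 4 : ℝ) * (1 / B ^ 3) * B ^ ((d : ℝ) / (d + 2)) *
      B ^ (2 / ((d : ℝ) + 2))) ≤ 1 / B := by
  have hB0 : 0 < B := by linarith
  have e : B ^ ((d : ℝ) / (d + 2)) * B ^ (2 / ((d : ℝ) + 2)) = B := by
    rw [← Real.rpow_add hB0, ← add_div, div_self (by positivity), Real.rpow_one]
  have h1 : Real.sqrt B * B ^ (1 / 4 : ℝ) ≤ B := by
    rw [Real.sqrt_eq_rpow, ← Real.rpow_add hB0]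
    simpa using Real.rpow_le_rpow_of_exponent_le hB (by norm_num : (1 / 2 + 1 / 4 : ℝ) ≤ 1)
  calc _ = (Real.sqrt B * B ^ (1 / 4 : ℝ)) * (1 / B ^ 3) *
        (B ^ ((d : ℝ) / (d + 2)) * B ^ (2 / ((d : ℝ) + 2))) := by ring
    _ ≤ B * (1 / B ^ 3) * B := by rw [e]; gcongr
    _ = 1 / B := by field_simp

theorem exists_exp_small (n : ℕ) : ∃ b₁ : ℝ, ∀ b : ℝ, b₁ ≤ b → b ^ n * Real.exp (-b) ≤ 1 := by
  have := (Real.tendsto_pow_mul_exp_neg_atTop_nhds_zero n).eventually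
    (eventually_le_nhds one_pos)
  exact Filter.eventually_atTop.1 this

theorem log_small {d M : ℕ} {R b : ℝ} (hR : 1 ≤ R) (hb : ((d : ℝ) + 1) * (4 * M + 6) ≤ b)
    (h : R ≤ b ^ (4 * M)) : Real.log ((4 * R + 1) ^ (d + 1) + 1) ≤ b ^ 2 := by
  have hd : (1 : ℝ) ≤ d + 1 := by linarith [(Nat.cast_nonneg d : (0 : ℝ) ≤ d)]
  have hM : (0 : ℝ) ≤ M := Nat.cast_nonneg M
  have hb1 : 1 ≤ b := by nlinarith
  have h1 : (4 * R + 1) ^ (d + 1) + 1 ≤ (6 * R) ^ (d + 1) := by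
    calc (4 * R + 1) ^ (d + 1) + 1 ≤ (5 * R) ^ (d + 1) + R ^ (d + 1) := by
          gcongr
          · linarith
          · exact one_le_pow₀ hR
      _ ≤ (5 * R + R) ^ (d + 1) := pow_add_pow_le (by positivity) (by positivity) (by omega)
      _ = _ := by ring_nf
  have h2 : Real.log R ≤ 4 * M * b := by
    calc Real.log R ≤ Real.log (b ^ (4 * M)) := Real.log_le_log (by linarith) h
      _ = 4 * M * Real.log b := by rw [Real.log_pow]; push_cast; ring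
      _ ≤ _ := by gcongr; linarith [Real.log_le_sub_one_of_pos (by linarith : 0 < b)]
  have h3 : Real.log 6 ≤ 6 * b := by linarith [Real.log_le_sub_one_of_pos (by norm_num : (0 : ℝ) < 6)]
  calc _ ≤ Real.log ((6 * R) ^ (d + 1)) := Real.log_le_log (by positivity) h1
    _ = (d + 1) * (Real.log 6 + Real.log R) := by
        rw [Real.log_pow, Real.log_mul (by norm_num) (by linarith)]; push_cast; ring
    _ ≤ (d + 1) * (6 * b + 4 * M * b) := by gcongr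
    _ = (d + 1) * (4 * M + 6) * b := by ring
    _ ≤ b * b := by gcongr
    _ = _ := by ring

end Crest.Agent.N76.II.LP
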