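import Crest.Agent.N76.II.LP.Num
import Crest.Agent.N76.II.CH

/-! # Row 76, Lemma P: one class in all windows (helper16). -/

set_option autoImplicit false

open MeasureTheory Set Metric
open scoped ENNReal

namespace Crest.Agent.N76.II.LP

open Crest.Agent.N76.Red (V)
open Crest.Agent.N76.G

variable {d : ℕ}

/-- body of `CH` -/
def CHb (d M : ℕ) (C : ℝ) : Prop :=
  ∀ (R : ℝ) (b i : ℕ), 1 ≤ R → 2 ≤ b → (b : ℝ) ^ (2 * M) ≤ R → i ≤ M + 1 →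
    ∀ (A : ℕ → ℤ → Set (Ph d)), (∀ l k, MeasurableSet (A l k)) →
    ∀ (a t t' ρ₁ ρ₂ : ℝ), 1 ≤ a → a ≤ (b : ℝ) ^ i → a ≤ Real.sqrt R → |t| ≤ R → |t' - t| ≤ a ^ 2 →
    C * b * Real.sqrt R ≤ ρ₁ → C * b / a ≤ ρ₂ →
    ∀ (𝓡 F : Set (Ph d)), MeasurableSet 𝓡 → MeasurableSet F →
    (∀ β ∈ F, ∀ β' ∈ 𝓡, ρ₁ ≤ ‖pos t (β - β')‖ ∨ ρ₂ ≤ ‖β.2 - β'.2‖) →
    ∀ g : L2 d, ∫ β in F, ‖co a t' (tower b A i M (loc (Real.sqrt R) 0 𝓡 g) t) β‖ ^ 2 ≤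
      C * R ^ d * Real.exp (-(b : ℝ)) * ‖g‖ ^ 2

/-- body of `SG` -/
def SGb (d : ℕ) (ε : ℝ) (m M b : ℕ) : Prop :=
  ∀ j i : ℕ, j ≤ i → i ≤ M →
    ∀ (ι : Type) (X : Finset ι) (p : ι → V d × ℝ) (w : ι → ℝ) (k₀ : ℤ),
    (∀ z ∈ X, 0 ≤ w z) → (∀ z ∈ X, p z ∈ closedBall (0 : V d × ℝ) ((b : ℝ) ^ (4 * M))) →
    (∀ z ∈ X, win b M (p z).2 = k₀) →
    ∀ (A : ℕ → ℤ → Set (Ph d)), (∀ l k, MeasurableSet (A l k)) →
    (∀ l k, ∀ β ∈ A l k, ‖β.2‖ ≤ 3) →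
    ∀ φ N₁ N₂ : ℝ, 0 ≤ φ → 0 ≤ N₁ → 0 ≤ N₂ →
    (∀ c, ms X p w (closedBall c ((b : ℝ) ^ (2 * j))) ≤ N₁) →
    (∀ c, ms X p w (closedBall c ((b : ℝ) ^ M)) ≤ N₂) →
    (∀ z ∈ X, ∃ F : Finset (V d), (F.card : ℝ) ≤ φ * ((b : ℝ) ^ j) ^ d ∧
      ∀ β ∈ A i (win b i (p z).2), ‖pos (p z).2 β - (p z).1‖ ≤ (b : ℝ) ^ (i + 1) →
        ∃ ζ ∈ F, ‖β.2 - ζ‖ ≤ 1 / (b : ℝ) ^ j) →
    ∀ h : L2 d, En X p w (fun z => tower b A i M h (p z).2) ≤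
      ((b : ℝ) ^ (ε * M) * φ * N₁ ^ ((d : ℝ) / (d + 2)) * ((b : ℝ) ^ M * N₂) ^ (2 / ((d : ℝ) + 2))
        + (∑ z ∈ X, w z) / (b : ℝ) ^ (m * M)) * ‖h‖ ^ 2

theorem split3 {a : ℝ} (ha : 0 < a) (t : ℝ) {Bad : Set (Ph d)} (hBad : MeasurableSet Bad)
    (H : L2 d) : H = loc a t (B3 d \ Bad) H + (loc a t (B3 d ∩ Bad) H + loc a t (B3 d)ᶜ H) := by
  have h3 := measurableSet_B3 (d := d)
  rw [← loc_union ha t (h3.inter hBad) h3.compl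
      (disjoint_compl_right.mono_left inter_subset_left),
    ← loc_union ha t (h3.diff hBad) ((h3.inter hBad).union h3.compl), ← union_assoc,
    sdiff_union_inter, union_compl_self, loc_univ ha]
  rw [Set.disjoint_left]
  rintro β ⟨h1, h2⟩ (h | h)
  · exact h2 h.2
  · exact h h1

theorem tower_update (b : ℕ) (G : ℕ → ℤ → Set (Ph d)) (A' : ℤ → Set (Ph d)) {i M : ℕ} (hi : i ≤ M)
    (h : L2 d) (t : ℝ) : tower b (Function.update G i A') i M h t =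
      loc ((b : ℝ) ^ i) (wt b i t) (A' (win b i t)) (tower b G (i + 1) M h t) := by
  rw [tower_eq_loc b _ hi]
  have : tower b (Function.update G i A') (i + 1) M h t = tower b G (i + 1) M h t := by
    refine tw_congr _ _ (fun j hj => ?_) h
    unfold lev
    rw [Function.update_of_ne (by omega)]
  rw [this]
  unfold lev
  rw [Function.update_self]

theorem update_prop {P : Set (Ph d) → Prop} {G : ℕ → ℤ → Set (Ph d)} (hG : ∀ l k, P (G l k))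
    {A' : ℤ → Set (Ph d)} (hA : ∀ k, P (A' k)) (i l : ℕ) (k : ℤ) :
    P (Function.update G i A' l k) := by
  by_cases h : l = i
  · subst h; rw [Function.update_self]; exact hA k
  · rw [Function.update_of_ne h]; exact hG l k

theorem win_mem {b : ℕ} (hb : 1 ≤ b) {i M : ℕ} (hi : i ≤ M) {t : ℝ} {k₀ : ℤ} (h : win b M t = k₀) :
    win b i t ∈ Finset.Ico (k₀ * (b : ℤ) ^ (2 * (M - i))) ((k₀ + 1) * (b : ℤ) ^ (2 * (M - i))) := by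
  rw [win_eq_div b hi] at h
  have hp : (0 : ℤ) < (b : ℤ) ^ (2 * (M - i)) := by positivity
  push_cast at h
  rw [← h]
  exact Finset.mem_Ico.2 ⟨Int.ediv_mul_le _ hp.ne', Int.lt_ediv_add_one_mul_self _ hp⟩

theorem win_bounds {b : ℕ} (hb : 1 ≤ b) (i : ℕ) (t : ℝ) :
    (win b i t : ℝ) * (b : ℝ) ^ (2 * i) ≤ t ∧
      t ≤ (win b i t : ℝ) * (b : ℝ) ^ (2 * i) + ((b : ℝ) ^ i) ^ 2 := by
  have hL : (0 : ℝ) < (b : ℝ) ^ (2 * i) := by positivity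
  have h1 := Int.floor_le (t / (b : ℝ) ^ (2 * i))
  have h2 := Int.lt_floor_add_one (t / (b : ℝ) ^ (2 * i))
  rw [le_div_iff₀ hL] at h1
  rw [div_lt_iff₀ hL] at h2
  unfold win
  rw [← pow_mul, mul_comm i 2]
  constructor <;> linarith

theorem win_self {b : ℕ} (hb : 1 ≤ b) (i : ℕ) (k : ℤ) : win b i (k * (b : ℝ) ^ (2 * i)) = k := by
  have hL : (0 : ℝ) < (b : ℝ) ^ (2 * i) := by positivity
  unfold win
  rw [mul_div_cancel_right₀ _ hL.ne', Int.floor_intCast]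

theorem En_fiber {ι κ : Type*} [DecidableEq κ] {X : Finset ι} (p : ι → V d × ℝ) (w : ι → ℝ) (H : ι → L2 d)
    {s : Finset κ} {f : ι → κ} (hf : ∀ z ∈ X, f z ∈ s) :
    En X p w H = ∑ k ∈ s, En (X.filter fun z => f z = k) p w H :=
  (Finset.sum_fiberwise_of_maps_to hf _).symm

theorem En_congr {ι : Type*} {X : Finset ι} (p : ι → V d × ℝ) (w : ι → ℝ) {H H' : ι → L2 d}
    (h : ∀ z ∈ X, H z = H' z) : En X p w H = En X p w H' :=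
  Finset.sum_congr rfl fun z hz => by rw [h z hz]

theorem abs_snd_le {R : ℝ} {u : V d × ℝ} (h : u ∈ closedBall (0 : V d × ℝ) R) : |u.2| ≤ R :=
  (norm_snd_le u).trans (mem_closedBall_zero_iff.1 h)

theorem ef_bound {M : ℕ} {C : ℝ} (hCH : CHb d M C) {R B K : ℝ} {b i : ℕ} (hR : 1 ≤ R) (hb : 2 ≤ b)
    (hL : (b : ℝ) ^ (2 * M) ≤ R) (hi : i ≤ M) {A : ℕ → ℤ → Set (Ph d)}
    (hA : ∀ l k, MeasurableSet (A l k)) (hK1 : 1 ≤ K) (hKa : K ≤ (b : ℝ) ^ i)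
    (hKT : K ≤ Real.sqrt R) (h1 : C * b * Real.sqrt R + (b + 5) * K ≤ B * Real.sqrt R)
    (h2 : C * b / K ≤ 1 / B ^ 22) (hB : 1 ≤ B) {𝓡 : Set (Ph d)} (h𝓡 : MeasurableSet 𝓡)
    (h𝓡2 : ∀ β ∈ 𝓡, ‖β.2‖ ≤ 2) {u v : V d × ℝ} (hu : |u.2| ≤ R) (huv : dist v u ≤ K)
    {Φ : Set (V d)} (hΦ : MeasurableSet Φ)
    (hΦ' : ∀ β ∈ 𝓡, ‖pos v.2 β - v.1‖ ≤ B * Real.sqrt R → closedBall β.2 (1 / B ^ 22) ⊆ Φ)
    (g : L2 d) :
    ∫ β in {β : Ph d | ‖pos u.2 β - u.1‖ ≤ b * K ∧ β.2 ∉ Φ ∩ closedBall 0 3},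
      ‖co K u.2 (tower b A i M (loc (Real.sqrt R) 0 𝓡 g) u.2) β‖ ^ 2 ≤
      C * R ^ d * Real.exp (-(b : ℝ)) * ‖g‖ ^ 2 := by
  refine hCH R b i hR hb hL (by omega) A hA K u.2 u.2 _ _ hK1 hKa hKT hu
    (by rw [sub_self, abs_zero]; positivity) le_rfl h2 𝓡 _ h𝓡 ?_ ?_ g
  · have m1 : MeasurableSet {β : Ph d | ‖pos u.2 β - u.1‖ ≤ b * K} :=
      (isClosed_le ((continuous_pos _).sub continuous_const).norm continuous_const).measurableSet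
    exact m1.inter (measurable_snd (hΦ.inter measurableSet_closedBall).compl)
  · rintro β ⟨hβ1, hβ2⟩ β' hβ'
    by_contra hcon
    push Not at hcon
    obtain ⟨c1, c2⟩ := hcon
    apply hβ2
    have hx : ‖v.1 - u.1‖ ≤ K := by
      rw [← dist_eq_norm]; exact (le_max_left _ _).trans huv
    have ht : |u.2 - v.2| ≤ K := by
      rw [abs_sub_comm, ← Real.dist_eq]; exact (le_max_right _ _).trans huv
    have e : pos v.2 β' - v.1 = (pos u.2 β - u.1) - pos u.2 (β - β') + (2 * (u.2 - v.2)) • β'.2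
        - (v.1 - u.1) := by
      simp only [pos, Prod.fst_sub, Prod.snd_sub, mul_sub, sub_smul, smul_sub]; abel
    have h3 : ‖(2 * (u.2 - v.2)) • β'.2‖ ≤ 4 * K := by
      rw [norm_smul, Real.norm_eq_abs, abs_mul, abs_two]
      have := h𝓡2 β' hβ'
      calc 2 * |u.2 - v.2| * ‖β'.2‖ ≤ 2 * K * 2 := by gcongr
        _ = _ := by ring
    have h4 : ‖pos v.2 β' - v.1‖ ≤ B * Real.sqrt R := by
      rw [e]
      have a1 := norm_sub_le ((pos u.2 β - u.1) - pos u.2 (β - β') + (2 * (u.2 - v.2)) • β'.2)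
        (v.1 - u.1)
      have a2 := norm_add_le ((pos u.2 β - u.1) - pos u.2 (β - β')) ((2 * (u.2 - v.2)) • β'.2)
      have a3 := norm_sub_le (pos u.2 β - u.1) (pos u.2 (β - β'))
      linarith
    refine ⟨hΦ' β' hβ' h4 (mem_closedBall_iff_norm.2 c2.le), mem_closedBall_zero_iff.2 ?_⟩
    have a1 := norm_le_norm_add_norm_sub' β.2 β'.2
    have a2 : 1 / B ^ 22 ≤ 1 := div_le_one_of_le₀ (one_le_pow₀ hB) (by positivity)
    linarith [h𝓡2 β' hβ']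

theorem far_bound {M : ℕ} {C : ℝ} (hCH : CHb d M C) {R : ℝ} {b i : ℕ} (hR : 1 ≤ R) (hb : 2 ≤ b)
    (hL : (b : ℝ) ^ (2 * M) ≤ R) (hi : i ≤ M) {A : ℕ → ℤ → Set (Ph d)}
    (hA : ∀ l k, MeasurableSet (A l k)) (h2 : C * b / (b : ℝ) ^ i ≤ 1)
    {𝓡 : Set (Ph d)} (h𝓡 : MeasurableSet 𝓡) (h𝓡2 : ∀ β ∈ 𝓡, ‖β.2‖ ≤ 2) {t : ℝ} (ht : |t| ≤ R)
    (g : L2 d) :
    ‖loc ((b : ℝ) ^ i) (wt b i t) (B3 d)ᶜ (tower b A (i + 1) M (loc (Real.sqrt R) 0 𝓡 g) t)‖ ^ 2 ≤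
      C * R ^ d * Real.exp (-(b : ℝ)) * ‖g‖ ^ 2 := by
  have hb1 : (1 : ℝ) ≤ b := by exact_mod_cast (by omega : 1 ≤ b)
  refine (norm_loc_sq_le (by positivity) _ measurableSet_B3.compl _).trans ?_
  refine hCH R b (i + 1) hR hb hL (by omega) A hA _ t _ _ 1 (one_le_pow₀ hb1)
    (pow_le_pow_right₀ hb1 (by omega)) ?_ ht (abs_wt_sub_le (by omega) i t) le_rfl h2 𝓡 _ h𝓡
    measurableSet_B3.compl ?_ g
  · refine Real.le_sqrt_of_sq_le (le_trans ?_ hL)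
    rw [← pow_mul]; exact pow_le_pow_right₀ hb1 (by omega)
  · intro β hβ β' hβ'
    right
    have h1 : 3 < ‖β.2‖ := not_le.1 hβ
    linarith [norm_le_norm_add_norm_sub' β.2 β'.2, h𝓡2 β' hβ']

set_option maxHeartbeats 800000 in
theorem class_energy {M m : ℕ} {Cch ε : ℝ} {b : ℕ} (hCH : CHb d M Cch) (hSG : SGb d ε m M b)
    {θ a' η Cc C R B K₀ Km r K N N₂ : ℝ} {i j : ℕ} (hC : 0 ≤ C) (hCch : 0 ≤ Cch)
    (hR : 1 ≤ R) (hB : 1 ≤ B) (hb : 2 ≤ b)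
    (hL : (b : ℝ) ^ (2 * M) ≤ R) (hR4 : R ≤ (b : ℝ) ^ (4 * M)) (hi : i ≤ M) (hj : j ≤ i)
    (hK1 : 1 ≤ K) (hKa : K ≤ (b : ℝ) ^ i) (hKT : K ≤ Real.sqrt R)
    (h1 : Cch * b * Real.sqrt R + (b + 5) * K ≤ B * Real.sqrt R) (h2 : Cch * b / K ≤ 1 / B ^ 22)
    {ι : Type} {X : Finset ι} {p : ι → V d × ℝ} {w : ι → ℝ} {k₀ : ℤ} (hw : ∀ z ∈ X, 0 ≤ w z)
    (hp : ∀ z ∈ X, p z ∈ closedBall (0 : V d × ℝ) R) (hwin : ∀ z ∈ X, win b M (p z).2 = k₀)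
    (hN₂ : 0 ≤ N₂) (hm1 : ∀ c, ms X p w (closedBall c ((b : ℝ) ^ (2 * j))) ≤ B)
    (hm2 : ∀ c, ms X p w (closedBall c ((b : ℝ) ^ M)) ≤ N₂)
    {G : ℕ → ℤ → Set (Ph d)} (hG : ∀ l k, MeasurableSet (G l k))
    (hG3 : ∀ l k, ∀ β ∈ G l k, ‖β.2‖ ≤ 3)
    {Xc : ℤ → Finset ι} (hXc : ∀ k, ∀ z ∈ Xc k, z ∈ X ∧ win b i (p z).2 = k)
    {Bad : ℤ → Set (Ph d)} {E : ℤ → Finset ι}
    (hout : ∀ k : ℤ, CWOut θ a' η Cc C R B K₀ Km ((b : ℝ) ^ i) b ((b : ℝ) ^ j) r K N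
      (k * (b : ℝ) ^ (2 * i)) X (Xc k) p w (Bad k) (E k))
    {Y : Finset ι} (hY : ∀ z ∈ Y, z ∈ Xc (win b i (p z).2) ∧ z ∉ E (win b i (p z).2))
    {𝓡 : Set (Ph d)} (h𝓡 : MeasurableSet 𝓡) (h𝓡2 : ∀ β ∈ 𝓡, ‖β.2‖ ≤ 2) {φ : ℝ} (hφ : 0 ≤ φ)
    (hcoef : 0 ≤ coef d θ a' η Cc B K₀ K N φ)
    (hΦ : ∀ z ∈ Y, ∃ Φ : Set (V d), MeasurableSet Φ ∧
      volume (Φ ∩ closedBall 0 3) ≤ ENNReal.ofReal φ ∧
      ∀ β ∈ 𝓡, ‖pos (p z).2 β - (p z).1‖ ≤ B * Real.sqrt R → closedBall β.2 (1 / B ^ 22) ⊆ Φ)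
    (g : L2 d) :
    En Y p w (fun z => tower b G (i + 1) M (loc (Real.sqrt R) 0 𝓡 g) (p z).2) ≤
      2 * C * coef d θ a' η Cc B K₀ K N φ *
        ((∑ k ∈ Finset.Ico (k₀ * (b : ℤ) ^ (2 * (M - i))) ((k₀ + 1) * (b : ℤ) ^ (2 * (M - i))),
          ∫ β in {β : Ph d | ‖β.2‖ ≤ 3}, xray (vv X p w (Ssc (d + 1) R ^ 2 * B ^ 3))
            ((k - 1) * (b : ℝ) ^ (2 * i)) ((k + 2) * (b : ℝ) ^ (2 * i)) β *
          ‖co ((b : ℝ) ^ i) (k * (b : ℝ) ^ (2 * i))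
            (tower b G (i + 1) M (loc (Real.sqrt R) 0 𝓡 g) (k * (b : ℝ) ^ (2 * i))) β‖ ^ 2)
          + (b : ℝ) ^ (2 * M) / (B * Ssc (d + 1) R ^ 2) * ‖g‖ ^ 2)
      + (4 * ((b : ℝ) ^ (ε * M) * (1 / B ^ 3) * B ^ ((d : ℝ) / (d + 2)) *
          ((b : ℝ) ^ M * N₂) ^ (2 / ((d : ℝ) + 2)) + (∑ z ∈ Y, w z) / (b : ℝ) ^ (m * M))
        + (2 * C + 4) * (Cch + 1) * ((∑ z ∈ Y, w z) * R ^ d * Real.exp (-(b : ℝ)))) * ‖g‖ ^ 2 := by
  classical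
  have hb' : 1 ≤ b := by omega
  have hb1 : (1 : ℝ) ≤ b := by exact_mod_cast hb'
  have ha0 : (0 : ℝ) < (b : ℝ) ^ i := by positivity
  have hT0 : 0 < Real.sqrt R := Real.sqrt_pos.2 (by linarith)
  have hYX : Y ⊆ X := fun z hz => (hXc _ z (hY z hz).1).1
  have hwY : ∀ z ∈ Y, 0 ≤ w z := fun z hz => hw z (hYX hz)
  have hsY : 0 ≤ ∑ z ∈ Y, w z := Finset.sum_nonneg hwY
  set g' := loc (Real.sqrt R) 0 𝓡 g with hg'
  have hg'n : ‖g'‖ ≤ ‖g‖ := norm_loc_le hT0 0 h𝓡 g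
  have hBad : ∀ k, MeasurableSet (Bad k) := fun k => (hout k).1
  set Ef := Cch * R ^ d * Real.exp (-(b : ℝ)) * ‖g‖ ^ 2 with hEf
  have hEf0 : 0 ≤ Ef := by positivity
  set Hz : ι → L2 d := fun z => tower b G (i + 1) M g' (p z).2 with hHz
  set tz : ι → ℝ := fun z => wt b i (p z).2 with htz
  set kz : ι → ℤ := fun z => win b i (p z).2 with hkz
  have s1 : En Y p w Hz ≤ 2 * En Y p w (fun z => loc ((b : ℝ) ^ i) (tz z) (B3 d \ Bad (kz z)) (Hz z))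
      + 2 * (2 * En Y p w (fun z => loc ((b : ℝ) ^ i) (tz z) (B3 d ∩ Bad (kz z)) (Hz z)) +
        2 * En Y p w (fun z => loc ((b : ℝ) ^ i) (tz z) (B3 d)ᶜ (Hz z))) := by
    rw [En_congr p w (fun z _ => split3 ha0 (tz z) (hBad (kz z)) (Hz z))]
    refine (En_add_le hwY _ _).trans ?_
    gcongr
    exact En_add_le hwY _ _
  have s2 : En Y p w (fun z => loc ((b : ℝ) ^ i) (tz z) (B3 d)ᶜ (Hz z)) ≤ (∑ z ∈ Y, w z) * Ef := by
    refine En_le_mass hwY _ fun z hz => far_bound hCH hR hb hL hi hG ?_ h𝓡 h𝓡2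
      (abs_snd_le (hp z (hYX hz))) g
    calc Cch * b / (b : ℝ) ^ i ≤ Cch * b / K := by gcongr
      _ ≤ 1 / B ^ 22 := h2
      _ ≤ 1 := div_le_one_of_le₀ (one_le_pow₀ hB) (by positivity)
  have s3 : En Y p w (fun z => loc ((b : ℝ) ^ i) (tz z) (B3 d ∩ Bad (kz z)) (Hz z)) ≤
      ((b : ℝ) ^ (ε * M) * (1 / B ^ 3) * B ^ ((d : ℝ) / (d + 2)) *
        ((b : ℝ) ^ M * N₂) ^ (2 / ((d : ℝ) + 2)) + (∑ z ∈ Y, w z) / (b : ℝ) ^ (m * M)) * ‖g‖ ^ 2 := by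
    have := hSG j i hj hi ι Y p w k₀ hwY
      (fun z hz => closedBall_subset_closedBall hR4 (hp z (hYX hz))) (fun z hz => hwin z (hYX hz))
      (Function.update G i fun k => B3 d ∩ Bad k)
      (update_prop (P := MeasurableSet) hG (fun k => measurableSet_B3.inter (hBad k)) i)
      (update_prop (P := fun A => ∀ β ∈ A, ‖β.2‖ ≤ 3) hG3 (fun k β hβ => hβ.1) i)
      (1 / B ^ 3) B N₂ (by positivity) (by linarith) hN₂
      (fun c => (II.B.ms_mono hw hYX fun _ _ h => h).trans (hm1 c))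
      (fun c => (II.B.ms_mono hw hYX fun _ _ h => h).trans (hm2 c))
      (fun z hz => by
        obtain ⟨F, hF1, hF2⟩ := (hout _).2.2.1 z (hY z hz).1 (hY z hz).2
        refine ⟨F, hF1, fun β hβ hn => ?_⟩
        rw [Function.update_self] at hβ
        exact hF2 β hβ.2 hβ.1 (by rw [← pow_succ]; exact hn)) g'
    simp only [tower_update b G _ hi] at this
    refine this.trans ?_
    gcongr
  set s := Finset.Ico (k₀ * (b : ℤ) ^ (2 * (M - i))) ((k₀ + 1) * (b : ℤ) ^ (2 * (M - i))) with hs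
  have hks : ∀ z ∈ Y, kz z ∈ s := fun z hz => win_mem hb' hi (hwin z (hYX hz))
  set Ik : ℤ → ℝ := fun k => ∫ β in {β : Ph d | ‖β.2‖ ≤ 3},
    xray (vv X p w (Ssc (d + 1) R ^ 2 * B ^ 3))
      ((k - 1) * (b : ℝ) ^ (2 * i)) ((k + 2) * (b : ℝ) ^ (2 * i)) β *
      ‖co ((b : ℝ) ^ i) (k * (b : ℝ) ^ (2 * i))
        (tower b G (i + 1) M g' (k * (b : ℝ) ^ (2 * i))) β‖ ^ 2 with hIk
  have asq : ((b : ℝ) ^ i) ^ 2 = (b : ℝ) ^ (2 * i) := by rw [← pow_mul, mul_comm]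
  have hS1 := one_le_Ssc hR (d + 1)
  have s4 : ∀ k ∈ s, En (Y.filter fun z => kz z = k) p w
      (fun z => loc ((b : ℝ) ^ i) (tz z) (B3 d \ Bad (kz z)) (Hz z)) ≤
      C * coef d θ a' η Cc B K₀ K N φ *
        (Ik k + (b : ℝ) ^ (2 * i) / (B * Ssc (d + 1) R ^ 2) * ‖g‖ ^ 2)
      + C * (∑ z ∈ Y.filter (fun z => kz z = k), w z) * (Ef + Real.exp (-(b : ℝ)) * ‖g‖ ^ 2) := by
    intro k _
    set Hk := tower b G (i + 1) M g' (k * (b : ℝ) ^ (2 * i)) with hHk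
    have hHk' : ∀ t, win b i t = k → tower b G (i + 1) M g' t = Hk := fun t ht =>
      tower_congr hb' G M g' (win_of_win_eq hb' (Nat.le_succ i) (ht.trans (win_self hb' i k).symm))
    have hHn : ‖Hk‖ ≤ ‖g‖ := (norm_tower_le hb' hG _ _ _ _).trans hg'n
    rw [En_congr p w (H' := fun _ => loc ((b : ℝ) ^ i) (k * (b : ℝ) ^ (2 * i)) (B3 d \ Bad k) Hk)
      (fun z hz => by
        have hz' : win b i (p z).2 = k := (Finset.mem_filter.1 hz).2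
        simp only [htz, hkz, hHz, wt, hz', hHk' _ hz'])]
    have := (hout k).2.2.2 (Y.filter fun z => kz z = k) Hk φ Ef
      (fun z hz => by
        obtain ⟨h3, h4⟩ := Finset.mem_filter.1 hz
        rw [← h4]; exact (hY z h3).1) hφ hEf0
      (fun z hz => by
        obtain ⟨Φ, f1, f2, f3⟩ := hΦ z (Finset.mem_filter.1 hz).1
        refine ⟨Φ ∩ closedBall 0 3, f1.inter measurableSet_closedBall, f2, inter_subset_right,
          fun c hc hd => ?_⟩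
        obtain ⟨c1, c2⟩ := hXc k c hc
        have := ef_bound hCH hR hb hL hi
          (update_prop (P := MeasurableSet) hG (A' := fun k => B3 d \ Bad k)
            (fun k => measurableSet_B3.diff (hBad k)) i) hK1 hKa hKT h1 h2 hB h𝓡 h𝓡2
          (abs_snd_le (hp c c1)) hd f1 f3 g
        rw [tower_update b G _ hi] at this
        simpa only [wt, c2, ← hg', hHk' _ c2] using this)
    refine this.trans ?_
    have hsk : 0 ≤ ∑ z ∈ Y.filter (fun z => kz z = k), w z :=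
      Finset.sum_nonneg fun z hz => hwY z (Finset.mem_filter.1 hz).1
    rw [asq, show (k : ℝ) * (b : ℝ) ^ (2 * i) - (b : ℝ) ^ (2 * i) = (k - 1) * (b : ℝ) ^ (2 * i) by ring,
      show (k : ℝ) * (b : ℝ) ^ (2 * i) + 2 * (b : ℝ) ^ (2 * i) = (k + 2) * (b : ℝ) ^ (2 * i) by ring]
    gcongr
    exact le_rfl
  have hcard : (s.card : ℝ) * (b : ℝ) ^ (2 * i) = (b : ℝ) ^ (2 * M) := by
    have : (s.card : ℤ) = (b : ℤ) ^ (2 * (M - i)) := by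
      rw [hs, Int.card_Ico_of_le _ _ (by
        have : (0 : ℤ) < (b : ℤ) ^ (2 * (M - i)) := by positivity
        linarith)]
      ring
    have h3 : (s.card : ℝ) = (b : ℝ) ^ (2 * (M - i)) := by exact_mod_cast this
    rw [h3, ← pow_add]; congr 1; omega
  have s5 : En Y p w (fun z => loc ((b : ℝ) ^ i) (tz z) (B3 d \ Bad (kz z)) (Hz z)) ≤
      C * coef d θ a' η Cc B K₀ K N φ *
        ((∑ k ∈ s, Ik k) + (b : ℝ) ^ (2 * M) / (B * Ssc (d + 1) R ^ 2) * ‖g‖ ^ 2)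
      + C * (∑ z ∈ Y, w z) * (Ef + Real.exp (-(b : ℝ)) * ‖g‖ ^ 2) := by
    rw [En_fiber p w _ hks]
    refine (Finset.sum_le_sum s4).trans (le_of_eq ?_)
    rw [Finset.sum_add_distrib, ← Finset.mul_sum, Finset.sum_add_distrib, ← Finset.sum_mul,
      ← Finset.sum_mul, ← Finset.mul_sum, Finset.sum_fiberwise_of_maps_to hks, Finset.sum_const, nsmul_eq_mul,
      ← hcard]
    ring
  have hRd : 1 ≤ R ^ d := one_le_pow₀ hR
  have s6 : Real.exp (-(b : ℝ)) * ‖g‖ ^ 2 ≤ R ^ d * Real.exp (-(b : ℝ)) * ‖g‖ ^ 2 := by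
    rw [mul_assoc]; exact le_mul_of_one_le_left (by positivity) hRd
  set W := ∑ z ∈ Y, w z
  set e := R ^ d * Real.exp (-(b : ℝ)) * ‖g‖ ^ 2 with he
  have he0 : 0 ≤ e := by positivity
  have hEe : Ef = Cch * e := by rw [hEf, he]; ring
  have s7 : C * W * (Ef + Real.exp (-(b : ℝ)) * ‖g‖ ^ 2) ≤ C * W * (Cch * e + e) := by
    rw [hEe]; gcongr
  have s8 : 0 ≤ W * e := by positivity
  have e2 : (2 * C + 4) * (Cch + 1) * (W * R ^ d * Real.exp (-(b : ℝ))) * ‖g‖ ^ 2 =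
      2 * (C * W * (Cch * e + e)) + 4 * (W * (Cch * e)) + 4 * (W * e) := by rw [he]; ring
  rw [add_mul, e2]
  rw [hEe] at s2
  linarith

end Crest.Agent.N76.II.LP
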